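import Claimed.Agent.R282.S2C.P.Shape

/-!
# 2C / L-P0b: calculus of itineraries (foundation)

`itPos θ S l t` : position at time `t`; `l` = list of `(time, new frame)`.
MAIN TOOL `itPos_formula` (sorted times):
`itPos θ ⟨a, c⟩ l t = c + a (η t) + jumpSum θ a l t`,
`jumpSum θ a l t = ∑_jumps (h_i - h_{i-1}) (η t - η (min t τ_i))`.
PLAN: induction on `l` generalising the state.  For `t ≤ τ₁` all later `τ_i ≥ τ₁ ≥ t` (Pairwise), so every
term vanishes (`min t τ_i = t`).  For `τ₁ < t` unfold `ASt.jump` and use linearity (`map_sub`).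
All other statements follow from the formula:
* continuity in `t` (`Shape.val_continuous`, `continuous_min`, frames are linear maps on a
  finite-dimensional space: `LinearMap.continuous_of_finiteDimensional`);
* `itPos_tag`: the difference of the actual and the home itinerary of a tagged list;
* `itPos_drop`: a jump to the same frame can be deleted; `itPos_split`: a jump `a → v` at `τ` may be
  replaced by `a → h → v` at `(τ, τ)`;
* Lipschitz bounds in `rnorm` (`rnorm_frame`, `rnorm_val_sub_le`).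
Size: ~450 lines.
-/

set_option autoImplicit false

namespace Claimed.Agent.R282

variable {n : ℕ}

/-- `∑_jumps (h_i - h_{i-1}) (η t - η (min t τ_i))` -/
noncomputable def jumpSum (θ : Shape n) : Fr n → List (ℝ × Fr n) → ℝ → Vec n
  | _, [], _ => 0
  | a, p :: l, t =>
      (p.2 (θ.val t - θ.val (min t p.1)) - a (θ.val t - θ.val (min t p.1))) + jumpSum θ p.2 l t

theorem Fr.continuous' (a : Fr n) : Continuous a :=
  a.toLinearMap.continuous_of_finiteDimensional

theorem itPos_nil (θ : Shape n) (S : ASt n) (t : ℝ) : itPos θ S [] t = S.pos θ t := rfl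

theorem itPos_cons (θ : Shape n) (S : ASt n) (p : ℝ × Fr n) (l : List (ℝ × Fr n)) (t : ℝ) :
    itPos θ S (p :: l) t = if t ≤ p.1 then S.pos θ t else itPos θ (S.jump θ p.1 p.2) l t := rfl

theorem itPos_cons_le (θ : Shape n) (S : ASt n) (p : ℝ × Fr n) (l : List (ℝ × Fr n)) {t : ℝ}
    (h : t ≤ p.1) : itPos θ S (p :: l) t = S.pos θ t := by
  rw [itPos_cons, if_pos h]

theorem itPos_cons_gt (θ : Shape n) (S : ASt n) (p : ℝ × Fr n) (l : List (ℝ × Fr n)) {t : ℝ}
    (h : p.1 < t) : itPos θ S (p :: l) t = itPos θ (S.jump θ p.1 p.2) l t := by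
  rw [itPos_cons, if_neg (not_le.2 h)]

/-- before all jumps -/
theorem itPos_of_le (θ : Shape n) (S : ASt n) (l : List (ℝ × Fr n)) {t : ℝ}
    (h : ∀ p ∈ l, t ≤ p.1) : itPos θ S l t = S.pos θ t := by
  cases l with
  | nil => rfl
  | cons p l => exact itPos_cons_le θ S p l (h p (List.mem_cons_self ..))

theorem ASt.jump_pos (S : ASt n) (θ : Shape n) (t : ℝ) (v : Fr n) :
    (S.jump θ t v).pos θ t = S.pos θ t := by
  simp only [ASt.jump, ASt.pos, sub_add_cancel]

/-- the tail of an itinerary, at and after the first jump -/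
theorem itPos_cons_ge (θ : Shape n) (S : ASt n) (p : ℝ × Fr n) (l : List (ℝ × Fr n))
    (hs : ∀ q ∈ l, p.1 ≤ q.1) {t : ℝ} (h : p.1 ≤ t) :
    itPos θ S (p :: l) t = itPos θ (S.jump θ p.1 p.2) l t := by
  rcases h.lt_or_eq with h | rfl
  · exact itPos_cons_gt θ S p l h
  · rw [itPos_cons_le θ S p l le_rfl, itPos_of_le θ _ l hs, ASt.jump_pos]

theorem jumpSum_eq_zero (θ : Shape n) (a : Fr n) (l : List (ℝ × Fr n)) {t : ℝ}
    (h : ∀ p ∈ l, t ≤ p.1) : jumpSum θ a l t = 0 := by
  induction l generalizing a with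
  | nil => rfl
  | cons p l ih =>
    rw [jumpSum, min_eq_left (h p (List.mem_cons_self ..)), sub_self, map_zero, map_zero, sub_zero,
      zero_add]
    exact ih p.2 fun q hq => h q (List.mem_cons_of_mem _ hq)

theorem itPos_formula (θ : Shape n) (a : Fr n) (c : Vec n) (l : List (ℝ × Fr n))
    (hs : l.Pairwise (fun p q => p.1 ≤ q.1)) (t : ℝ) :
    itPos θ ⟨a, c⟩ l t = c + a (θ.val t) + jumpSum θ a l t := by
  induction l generalizing a c with
  | nil => simp [itPos, jumpSum, ASt.pos]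
  | cons p l ih =>
    rw [List.pairwise_cons] at hs
    by_cases h : t ≤ p.1
    · rw [itPos_cons_le θ _ p l h, jumpSum_eq_zero θ a (p :: l), add_zero]
      · rfl
      · intro q hq
        rcases List.mem_cons.1 hq with rfl | hq
        · exact h
        · exact h.trans (hs.1 q hq)
    · have h' : p.1 < t := not_le.1 h
      rw [itPos_cons_gt θ _ p l h', ASt.jump, ih _ _ hs.2, jumpSum, min_eq_right h'.le, map_sub,
        map_sub]
      abel

theorem jumpSum_continuous (θ : Shape n) (a : Fr n) (l : List (ℝ × Fr n)) :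
    Continuous (jumpSum θ a l) := by
  induction l generalizing a with
  | nil => exact continuous_const
  | cons p l ih =>
    have h1 : Continuous fun t : ℝ => θ.val t - θ.val (min t p.1) :=
      θ.val_continuous.sub (θ.val_continuous.comp (continuous_id.min continuous_const))
    exact ((p.2.continuous'.comp h1).sub (a.continuous'.comp h1)).add (ih p.2)

theorem itPos_continuous (θ : Shape n) (S : ASt n) (l : List (ℝ × Fr n))
    (hs : l.Pairwise (fun p q => p.1 ≤ q.1)) : Continuous (itPos θ S l) := by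
  obtain ⟨a, c⟩ := S
  have h : itPos θ ⟨a, c⟩ l = fun t => c + a (θ.val t) + jumpSum θ a l t := by
    funext t
    exact itPos_formula θ a c l hs t
  rw [h]
  exact (continuous_const.add (a.continuous'.comp θ.val_continuous)).add (jumpSum_continuous θ a l)

theorem itPos_zero (θ : Shape n) (a : Fr n) (c : Vec n) (l : List (ℝ × Fr n))
    (hs : l.Pairwise (fun p q => p.1 ≤ q.1)) (h0 : ∀ p ∈ l, 0 ≤ p.1) :
    itPos θ ⟨a, c⟩ l 0 = c := by
  rw [itPos_of_le θ _ l h0, ASt.pos, θ.val_nonpos le_rfl, map_zero, add_zero]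

/-- monotonicity of `itAll`, with membership -/
theorem itAll_mono' (θ : Shape n) {P Q : ASt n → ℝ → Fr n → Prop} (S : ASt n)
    (l : List (ℝ × Fr n)) (h : ∀ S t v, (t, v) ∈ l → P S t v → Q S t v) (hP : itAll θ P S l) :
    itAll θ Q S l := by
  induction l generalizing S with
  | nil => trivial
  | cons p l ih =>
    exact ⟨h _ _ _ (List.mem_cons_self ..) hP.1,
      ih _ (fun S t v hm => h S t v (List.mem_cons_of_mem _ hm)) hP.2⟩

/-- the position at a jump time, computed by the state machine, is the position of the path -/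
theorem itAll_pos (θ : Shape n) (S : ASt n) (l : List (ℝ × Fr n))
    (hs : l.Pairwise (fun p q => p.1 ≤ q.1)) :
    itAll θ (fun S' t _ => S'.pos θ t = itPos θ S l t) S l := by
  induction l generalizing S with
  | nil => trivial
  | cons p l ih =>
    rw [List.pairwise_cons] at hs
    refine ⟨(itPos_cons_le θ S p l le_rfl).symm, ?_⟩
    refine itAll_mono' θ _ l ?_ (ih (S.jump θ p.1 p.2) hs.2)
    intro S' t v hm hP
    rw [hP, itPos_cons_ge θ S p l hs.1 (hs.1 _ hm)]

/-- monotonicity of `itAll` -/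
theorem itAll_mono (θ : Shape n) {P Q : ASt n → ℝ → Fr n → Prop} (h : ∀ S t v, P S t v → Q S t v)
    (S : ASt n) (l : List (ℝ × Fr n)) (hP : itAll θ P S l) : itAll θ Q S l :=
  itAll_mono' θ S l (fun S t v _ => h S t v) hP

theorem itAll_and (θ : Shape n) {P Q : ASt n → ℝ → Fr n → Prop}
    (S : ASt n) (l : List (ℝ × Fr n)) (hP : itAll θ P S l) (hQ : itAll θ Q S l) :
    itAll θ (fun S t v => P S t v ∧ Q S t v) S l := by
  induction l generalizing S with
  | nil => trivial
  | cons p l ih => exact ⟨⟨hP.1, hQ.1⟩, ih _ hP.2 hQ.2⟩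

theorem ASt.jump_self (S : ASt n) (θ : Shape n) (t : ℝ) : S.jump θ t S.fr = S := by
  obtain ⟨a, c⟩ := S
  simp only [ASt.jump, add_sub_cancel_right]

theorem ASt.jump_jump (S : ASt n) (θ : Shape n) (t : ℝ) (h v : Fr n) :
    (S.jump θ t h).jump θ t v = S.jump θ t v := by
  simp only [ASt.jump, sub_add_cancel]

/-- a jump to the same frame can be deleted -/
theorem itPos_drop (θ : Shape n) (S : ASt n) (τ : ℝ) (l : List (ℝ × Fr n))
    (h : ∀ p ∈ l, τ ≤ p.1) (t : ℝ) : itPos θ S ((τ, S.fr) :: l) t = itPos θ S l t := by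
  by_cases ht : t ≤ τ
  · rw [itPos_cons_le θ S _ l ht, itPos_of_le θ S l fun p hp => ht.trans (h p hp)]
  · rw [itPos_cons_gt θ S _ l (not_le.1 ht), ASt.jump_self]

/-- a jump may be split into two simultaneous jumps -/
theorem itPos_split (θ : Shape n) (S : ASt n) (τ : ℝ) (h v : Fr n) (l : List (ℝ × Fr n)) (t : ℝ) :
    itPos θ S ((τ, h) :: (τ, v) :: l) t = itPos θ S ((τ, v) :: l) t := by
  by_cases ht : t ≤ τ
  · rw [itPos_cons_le θ S _ _ ht, itPos_cons_le θ S _ _ ht]
  · have ht' : τ < t := not_le.1 ht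
    rw [itPos_cons_gt θ S _ _ ht', itPos_cons_gt θ _ _ _ ht', itPos_cons_gt θ S _ _ ht',
      ASt.jump_jump]

/-- difference between the actual and the home itinerary of a tagged list:
`y_t(x) = y_σ(x) + z(x) + ∑_i (h_i - h_{i-1}) D_i(x)` with
`D_i(x) = η t_i - η (min x t_i)` if `σ_i < x`, and `η x - η (min x t_i)` if `x ≤ σ_i`. -/
noncomputable def tagRest (θ : Shape n) : Fr n → TagL n → ℝ → Vec n
  | _, [], _ => 0
  | a, e :: fs, x =>
      (e.2.2 (θ.val (if e.1 < x then e.2.1 else x) - θ.val (min x e.2.1)) -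
        a (θ.val (if e.1 < x then e.2.1 else x) - θ.val (min x e.2.1))) + tagRest θ e.2.2 fs x

theorem jumpSum_tag (θ : Shape n) (a : Fr n) (fs : TagL n) (x : ℝ) :
    jumpSum θ a fs.act x = jumpSum θ a fs.home x + zOf θ a fs x + tagRest θ a fs x := by
  induction fs generalizing a with
  | nil => simp [TagL.act, TagL.home, jumpSum, zOf, tagRest]
  | cons e fs ih =>
    have ih' := ih e.2.2
    simp only [TagL.act, TagL.home, List.map_cons, jumpSum, zOf, tagRest] at ih' ⊢
    rw [ih']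
    by_cases h : e.1 < x
    · simp only [if_pos h, min_eq_right h.le, map_sub]
      abel
    · simp only [if_neg h, min_eq_left (not_lt.1 h), map_sub]
      abel

theorem itPos_tag (θ : Shape n) (a : Fr n) (c : Vec n) (fs : TagL n)
    (hσ : fs.home.Pairwise (fun p q => p.1 ≤ q.1)) (ht : fs.act.Pairwise (fun p q => p.1 ≤ q.1))
    (x : ℝ) :
    itPos θ ⟨a, c⟩ fs.act x = itPos θ ⟨a, c⟩ fs.home x + zOf θ a fs x + tagRest θ a fs x := by
  rw [itPos_formula θ a c _ ht, itPos_formula θ a c _ hσ, jumpSum_tag]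
  abel

namespace RDatum

variable (D : RDatum n)

theorem c2p_Lam_nonneg (θ : Shape n) : 0 ≤ (θ.map D.rnorm).sum := by
  apply List.sum_nonneg
  intro r hr
  obtain ⟨v, _, rfl⟩ := List.mem_map.1 hr
  exact D.rnorm_nonneg v

theorem c2p_pos_sub_le (θ : Shape n) {S : ASt n} (hS : S.fr ∈ D.W) (s t : ℝ) :
    D.rnorm (S.pos θ t - S.pos θ s) ≤ (θ.map D.rnorm).sum * |t - s| := by
  rw [ASt.pos, ASt.pos, add_sub_add_left_eq_sub, ← map_sub, D.rnorm_frame hS]
  exact D.rnorm_val_sub_le θ s t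

theorem c2p_itPos_sub_le_aux (θ : Shape n) (l : List (ℝ × Fr n)) (S : ASt n) (hS : S.fr ∈ D.W)
    (hW : ∀ p ∈ l, p.2 ∈ D.W) (hs : l.Pairwise (fun p q => p.1 ≤ q.1)) {s t : ℝ} (hst : s ≤ t) :
    D.rnorm (itPos θ S l t - itPos θ S l s) ≤ (θ.map D.rnorm).sum * (t - s) := by
  induction l generalizing S s t with
  | nil =>
    have := D.c2p_pos_sub_le θ hS s t
    rwa [abs_of_nonneg (sub_nonneg.2 hst)] at this
  | cons p l ih =>
    rw [List.pairwise_cons] at hs
    have hS1 : (S.jump θ p.1 p.2).fr ∈ D.W := hW p (List.mem_cons_self ..)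
    have hW1 : ∀ q ∈ l, q.2 ∈ D.W := fun q hq => hW q (List.mem_cons_of_mem _ hq)
    by_cases h1 : t ≤ p.1
    · rw [itPos_cons_le θ S p l h1, itPos_cons_le θ S p l (hst.trans h1)]
      have := D.c2p_pos_sub_le θ hS s t
      rwa [abs_of_nonneg (sub_nonneg.2 hst)] at this
    · have h1' : p.1 ≤ t := (not_le.1 h1).le
      by_cases h2 : s ≤ p.1
      · rw [itPos_cons_ge θ S p l hs.1 h1', itPos_cons_le θ S p l h2]
        have e1 : itPos θ (S.jump θ p.1 p.2) l t - S.pos θ s =
            (itPos θ (S.jump θ p.1 p.2) l t - itPos θ (S.jump θ p.1 p.2) l p.1) +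
              (S.pos θ p.1 - S.pos θ s) := by
          rw [itPos_of_le θ _ l hs.1, ASt.jump_pos]
          abel
        rw [e1]
        have b1 := ih _ hS1 hW1 hs.2 (s := p.1) (t := t) h1'
        have b2 := D.c2p_pos_sub_le θ hS s p.1
        rw [abs_of_nonneg (sub_nonneg.2 h2)] at b2
        have b3 := D.rnorm_add_le (itPos θ (S.jump θ p.1 p.2) l t - itPos θ (S.jump θ p.1 p.2) l p.1)
          (S.pos θ p.1 - S.pos θ s)
        nlinarith
      · rw [itPos_cons_ge θ S p l hs.1 h1', itPos_cons_ge θ S p l hs.1 (not_le.1 h2).le]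
        exact ih _ hS1 hW1 hs.2 hst

/-- Lipschitz in time -/
theorem rnorm_itPos_sub_le (θ : Shape n) {u0 : Fr n} {l : List (ℝ × Fr n)} (c : Vec n)
    (h : D.IsIt θ u0 l) (s t : ℝ) :
    D.rnorm (itPos θ ⟨u0, c⟩ l t - itPos θ ⟨u0, c⟩ l s) ≤ (θ.map D.rnorm).sum * |t - s| := by
  rcases le_total s t with hst | hst
  · rw [abs_of_nonneg (sub_nonneg.2 hst)]
    exact D.c2p_itPos_sub_le_aux θ l ⟨u0, c⟩ h.u0_mem h.fr_mem h.sorted hst
  · rw [abs_sub_comm, abs_of_nonneg (sub_nonneg.2 hst), ← D.rnorm_neg, neg_sub]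
    exact D.c2p_itPos_sub_le_aux θ l ⟨u0, c⟩ h.u0_mem h.fr_mem h.sorted hst

theorem c2p_diff_le {a h : Fr n} (ha : a ∈ D.W) (hh : h ∈ D.W) (V : Vec n) :
    D.rnorm (h V - a V) ≤ 2 * D.rnorm V := by
  have := D.rnorm_sub_le (h V) (a V)
  rw [D.rnorm_frame hh, D.rnorm_frame ha] at this
  linarith

/-- bound for the displacement -/
theorem rnorm_zOf_le (θ : Shape n) {a : Fr n} (ha : a ∈ D.W) (fs : TagL n)
    (hW : ∀ e ∈ fs, e.2.2 ∈ D.W) (δ : ℝ) (hδ : ∀ e ∈ fs, |e.2.1 - e.1| ≤ δ) (x : ℝ) :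
    D.rnorm (zOf θ a fs x) ≤ 2 * fs.length * ((θ.map D.rnorm).sum * δ) := by
  induction fs generalizing a with
  | nil => simp [zOf, D.rnorm_zero]
  | cons e fs ih =>
    have he := hW e (List.mem_cons_self ..)
    have ih' := ih he (fun e' h' => hW e' (List.mem_cons_of_mem _ h'))
      (fun e' h' => hδ e' (List.mem_cons_of_mem _ h'))
    have hΛ := D.c2p_Lam_nonneg θ
    have hd := hδ e (List.mem_cons_self ..)
    have b1 : D.rnorm (if e.1 < x then e.2.2 (θ.val e.1 - θ.val e.2.1) -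
        a (θ.val e.1 - θ.val e.2.1) else 0) ≤ 2 * ((θ.map D.rnorm).sum * δ) := by
      split_ifs
      · have c1 := D.c2p_diff_le ha he (θ.val e.1 - θ.val e.2.1)
        have c2 := D.rnorm_val_sub_le θ e.2.1 e.1
        rw [abs_sub_comm] at c2
        have c3 : (θ.map D.rnorm).sum * |e.2.1 - e.1| ≤ (θ.map D.rnorm).sum * δ :=
          mul_le_mul_of_nonneg_left hd hΛ
        linarith
      · rw [D.rnorm_zero]
        have : 0 ≤ δ := (abs_nonneg _).trans hd
        positivity
    rw [zOf, List.length_cons, Nat.cast_add, Nat.cast_one]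
    have b2 := D.rnorm_add_le (if e.1 < x then e.2.2 (θ.val e.1 - θ.val e.2.1) -
        a (θ.val e.1 - θ.val e.2.1) else 0) (zOf θ e.2.2 fs x)
    nlinarith

theorem c2p_D_abs_le (σ t x : ℝ) : |(if σ < x then t else x) - min x t| ≤ |t - σ| := by
  by_cases h : σ < x
  · rw [if_pos h]
    rcases le_total x t with h1 | h1
    · rw [min_eq_left h1, abs_of_nonneg (sub_nonneg.2 h1), abs_of_nonneg (by linarith)]
      linarith
    · rw [min_eq_right h1, sub_self, abs_zero]
      exact abs_nonneg _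
  · rw [if_neg h]
    rcases le_total x t with h1 | h1
    · rw [min_eq_left h1, sub_self, abs_zero]
      exact abs_nonneg _
    · rw [min_eq_right h1, abs_of_nonneg (sub_nonneg.2 h1), abs_sub_comm,
        abs_of_nonneg (by linarith [not_lt.1 h])]
      linarith [not_lt.1 h]

theorem rnorm_tagRest_le (θ : Shape n) {a : Fr n} (ha : a ∈ D.W) (fs : TagL n)
    (hW : ∀ e ∈ fs, e.2.2 ∈ D.W) (δ : ℝ) (hδ : ∀ e ∈ fs, |e.2.1 - e.1| ≤ δ) (x : ℝ) :
    D.rnorm (tagRest θ a fs x) ≤ 2 * fs.length * ((θ.map D.rnorm).sum * δ) := by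
  induction fs generalizing a with
  | nil => simp [tagRest, D.rnorm_zero]
  | cons e fs ih =>
    have he := hW e (List.mem_cons_self ..)
    have ih' := ih he (fun e' h' => hW e' (List.mem_cons_of_mem _ h'))
      (fun e' h' => hδ e' (List.mem_cons_of_mem _ h'))
    have hΛ := D.c2p_Lam_nonneg θ
    have hd := hδ e (List.mem_cons_self ..)
    have c1 := D.c2p_diff_le ha he (θ.val (if e.1 < x then e.2.1 else x) - θ.val (min x e.2.1))
    have c2 := D.rnorm_val_sub_le θ (min x e.2.1) (if e.1 < x then e.2.1 else x)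
    have c3 : (θ.map D.rnorm).sum * |(if e.1 < x then e.2.1 else x) - min x e.2.1| ≤
        (θ.map D.rnorm).sum * δ :=
      mul_le_mul_of_nonneg_left ((c2p_D_abs_le e.1 e.2.1 x).trans hd) hΛ
    rw [tagRest, List.length_cons, Nat.cast_add, Nat.cast_one]
    have b2 := D.rnorm_add_le (e.2.2 (θ.val (if e.1 < x then e.2.1 else x) - θ.val (min x e.2.1)) -
        a (θ.val (if e.1 < x then e.2.1 else x) - θ.val (min x e.2.1))) (tagRest θ e.2.2 fs x)
    nlinarith

end RDatum

end Claimed.Agent.R282
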