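import Claimed.Agent.R282.S2C.P.It

/-!
# 2C / L-P2: the area functional

PLAN.
* `area_eq_of_sameFold`: `phi (g z) = phi z` (`phi_inv`), so the integrands agree on `[0, T]`
  (`intervalIntegral.integral_congr`, `Set.uIcc_of_le`).
* `two_sided_gain`: the three integrands `phi ∘ y` are continuous.  Pointwise on `[0,T]`:
  `2 phi(y0) ≤ phi(y0+z) + phi(y0-z) ≤ phi(yp) + phi(ym)` (`phi_mid`), strict on `(a,b)`.
  Use `intervalIntegral.integral_lt_integral_of_continuousOn_of_le_of_exists_lt` for
  `f = 2 phi∘y0`, `g = phi∘yp + phi∘ym` (needs `0 < T`, which follows from `a < b`).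
Size: ~120 lines.
-/

set_option autoImplicit false

namespace Claimed.Agent.R282.RDatum

variable {n : ℕ} (D : RDatum n)

/-- (P2) the area only depends on the folded path -/
theorem area_eq_of_sameFold {θ : Shape n} {S S' : ASt n} {l l' : List (ℝ × Fr n)}
    (h : D.SameFold θ S l S' l') : D.area θ S l = D.area θ S' l' := by
  unfold area
  apply intervalIntegral.integral_congr
  intro t ht
  rw [Set.uIcc_of_le (Nat.cast_nonneg _)] at ht
  obtain ⟨g, hg, he⟩ := h t ht.1 ht.2
  simp only
  rw [he, D.phi_inv _ hg]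

/-- (W3) the convexity inequality for a two-sided variation -/
theorem two_sided_gain (T : ℝ) (y0 yp ym z : ℝ → Vec n) (h0 : Continuous y0) (hp : Continuous yp)
    (hm : Continuous ym)
    (ip : ∀ x, 0 ≤ x → x ≤ T → D.phi (y0 x + z x) ≤ D.phi (yp x))
    (im : ∀ x, 0 ≤ x → x ≤ T → D.phi (y0 x - z x) ≤ D.phi (ym x))
    (hs : ∃ x, 0 ≤ x ∧ x ≤ T ∧ D.phi (y0 x + z x) < D.phi (yp x)) (hT : 0 < T) :
    2 * (∫ x in (0 : ℝ)..T, D.phi (y0 x)) <
      (∫ x in (0 : ℝ)..T, D.phi (yp x)) + ∫ x in (0 : ℝ)..T, D.phi (ym x) := by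
  have c0 : Continuous fun x => D.phi (y0 x) := D.phi_continuous.comp h0
  have cp : Continuous fun x => D.phi (yp x) := D.phi_continuous.comp hp
  have cm : Continuous fun x => D.phi (ym x) := D.phi_continuous.comp hm
  rw [← intervalIntegral.integral_const_mul,
    ← intervalIntegral.integral_add (cp.intervalIntegrable _ _) (cm.intervalIntegrable _ _)]
  apply intervalIntegral.integral_lt_integral_of_continuousOn_of_le_of_exists_lt hT
    (continuous_const.mul c0).continuousOn (cp.add cm).continuousOn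
  · intro x hx
    have h1 := D.phi_mid (y0 x) (z x)
    have h2 := ip x hx.1.le hx.2
    have h3 := im x hx.1.le hx.2
    show 2 * D.phi (y0 x) ≤ D.phi (yp x) + D.phi (ym x)
    linarith
  · obtain ⟨x, hx0, hxT, hlt⟩ := hs
    refine ⟨x, ⟨hx0, hxT⟩, ?_⟩
    have h1 := D.phi_mid (y0 x) (z x)
    have h3 := im x hx0 hxT
    show 2 * D.phi (y0 x) < D.phi (yp x) + D.phi (ym x)
    linarith

end Claimed.Agent.R282.RDatum
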