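import Claimed.Agent.R282.S2C.P.It
import Claimed.Agent.R282.S2C.B.Par

/-!
# 2C / BP-P4: FOLDING an admissible itinerary into the chamber
(also the common folding lemma for Lemma 2.6 / Lemma 5.2: helper64 K11, helper216)

INPUT: `IsAdm lam θ u0 l` (simultaneous jumps allowed), DOMINANT shape (regularity is not needed), `lam ∈ Cham`, end in `W xi`.
OUTPUT: `IsDec lam θ xi u0' l'` with the same folded path.

Sub-architect: helper178.  NEW ROUTE (no list of event times, no affine pieces): a procedure with three moves and a termination measure.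
State of the procedure: time `τ`, unfolded state `S` (frame `a`), remaining jumps `l` (times `≥ τ`), `g ∈ W` with `p := g (S.pos τ) ∈ Cham`.  Folded state `S.tr g = ⟨g a, g c⟩`, folded frame `u = g a`.
 (A) a jump `(τ, v)` is due now: folded jump `(τ, g v)`, `Ge (g a) (g v)` by admissibility.                                  `l.length` drops.
 (K) `¬ PMin p u`: `exists_pmin` gives `k`, `k p = p`, `PMin p (k u)`; folded jump `(τ, k u)`, `Ge u (k u)` by `ge_pmin`; `g := k g`.     `k u ≠ u`, so `below` drops.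
 (M) `PMin p u` and no jump is due: move to the largest `s ≤ t₁` (`t₁` = next jump time or `T`) such that `g (S.pos t) ∈ Cham` on `[τ, s]`; `s > τ`; at `s`: (A), (K) or the end.
Measure: `l.length + below (g a)`, `below u = card {w | Ge u w}` (finite, antitone along `Ge`, strictly if `u ≠ v`: `ge_antisymm`).

LEAVES: L-2C-P4a (section `St`), L-2C-P4b (section `Below`), L-2C-P4c (`fold_move`), L-2C-P4d (`FoldIn.stepA`, `FoldOut.stepA`, `FoldIn.stepK`, `FoldOut.stepK`), L-2C-P4e (`FoldIn.stepM`, `FoldOut.stepM`, `FoldOut.nil`).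
Helper lemmas: prefix `c2p4_`.  The induction `fold_aux` and `fold_cham`, `fold` are proved.

ROUTES.
* section `St`: unfold `ASt.tr`, `ASt.pos`, `ASt.jump`; `LinearEquiv.mul_apply`, `map_add`, `map_sub`; `ASt.ext`-style: `ASt.mk.injEq`.  `tr_rechamber`: `g c + g a η - k g a η = k g c` because `k (g c + g a η) = g c + g a η`.
* section `Below`: `{w | Ge u w} ⊆ W` (`ge_mem`), `W` finite (`D.finW`, `Set.toFinite`/`Set.Finite.subset`), `Set.ncard_le_ncard`, `Set.ncard_lt_ncard`; `u ∈ {w | Ge u w}`, `u ∉ {w | Ge v w}` if `Ge u v`, `u ≠ v` (`ge_antisymm`).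
* `fold_move`.  `f β t := dot (S'.pos θ t) β = f β τ + dot (u (η t - η τ)) β`, continuous in `t` (`Shape.val_continuous`, linear maps in finite dimension).  For `s ≤ t`: `η t - η s ∈ Cham` (`val_sub_cham`).
  GOOD positive roots (`0 < dot (u ρ) β`): `f β` is monotone (`dot_frame_nonneg`), so `f β t ≥ f β τ ≥ 0`.  BAD positive roots (`dot (u ρ) β < 0`; no third case: `rho_reg` + `dot_inv`): `f β` is antitone (`dot_frame_nonpos`), `f β τ > 0` (`hc`, `hmin`).
  `A := {t ∈ Icc τ t₁ | ∀ β bad, 0 ≤ f β t}` is compact, contains `τ`; `s := sSup A ∈ A` (`IsCompact.sSup_mem`).  `Cham` on `[τ, s]` by antitonicity.  `τ < s`: finitely many bad roots (`D.roots` is a `Finset`), all `f β τ > 0`, continuity ⇒ `[τ, τ + ε] ⊆ A`.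
  If `s < t₁` and all bad `f β s > 0` the same argument gives a point of `A` beyond `s`; so some bad `β` has `f β s = 0`: `¬ PMin`.
* steps: unfold `itPos`, `itAll` at the head (`if t ≤ τ`): for `t = τ` use `itPos_head`, for `τ < t` the `if` is false and the state is rewritten by `tr_jump` / `tr_rechamber`.
-/

set_option autoImplicit false

namespace Claimed.Agent.R282

variable {n : ℕ}

section St

/-- the state `S` seen through `g` -/
def ASt.tr (S : ASt n) (g : Fr n) : ASt n := ⟨g * S.fr, g S.c⟩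

theorem ASt.tr_fr (S : ASt n) (g : Fr n) : (S.tr g).fr = g * S.fr := rfl

theorem ASt.tr_one (S : ASt n) : S.tr 1 = S := by
  cases S
  simp [ASt.tr]

theorem ASt.tr_pos (S : ASt n) (g : Fr n) (θ : Shape n) (t : ℝ) : (S.tr g).pos θ t = g (S.pos θ t) := by
  simp [ASt.tr, ASt.pos, LinearEquiv.mul_apply]

theorem ASt.jump_fr (S : ASt n) (θ : Shape n) (t : ℝ) (v : Fr n) : (S.jump θ t v).fr = v := rfl

theorem ASt.tr_jump (S : ASt n) (g : Fr n) (θ : Shape n) (t : ℝ) (v : Fr n) :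
    (S.tr g).jump θ t (g * v) = (S.jump θ t v).tr g := by
  simp [ASt.tr, ASt.jump, LinearEquiv.mul_apply]

theorem ASt.tr_rechamber (S : ASt n) (g k : Fr n) (θ : Shape n) (τ : ℝ)
    (h : k (g (S.pos θ τ)) = g (S.pos θ τ)) : (S.tr g).jump θ τ (k * (g * S.fr)) = S.tr (k * g) := by
  simp only [ASt.tr, ASt.jump, ASt.pos, LinearEquiv.mul_apply, map_add, ASt.mk.injEq] at h ⊢
  refine ⟨(mul_assoc _ _ _).symm, ?_⟩
  rw [← h]
  abel

/-- before the first jump -/
theorem itPos_head (θ : Shape n) (S : ASt n) (l : List (ℝ × Fr n)) (t : ℝ) (h : ∀ p ∈ l, t ≤ p.1) :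
    itPos θ S l t = S.pos θ t := by
  cases l with
  | nil => rfl
  | cons p l =>
    have := h p (by simp)
    simp [itPos, this]

/-- after a jump at the head -/
theorem c2p4_itPos_cons_gt (θ : Shape n) (S : ASt n) (τ : ℝ) (v : Fr n) (l : List (ℝ × Fr n)) (t : ℝ) (h : τ < t) :
    itPos θ S ((τ, v) :: l) t = itPos θ (S.jump θ τ v) l t := by
  simp [itPos, not_le.2 h]

end St

namespace RDatum

variable (D : RDatum n)

section Below

/-- number of elements below `u` in the Bruhat order -/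
noncomputable def below (u : Fr n) : ℕ := Set.ncard {w | D.Ge u w}

theorem c2p4_fin {u : Fr n} (hu : u ∈ D.W) : {w | D.Ge u w}.Finite := by
  have : Finite D.W := D.finW
  have h1 : (D.W : Set (Fr n)).Finite := Set.toFinite _
  exact h1.subset fun w hw => D.ge_mem hu hw

theorem below_le {u v : Fr n} (hu : u ∈ D.W) (h : D.Ge u v) : D.below v ≤ D.below u := by
  exact Set.ncard_le_ncard (fun w hw => Relation.ReflTransGen.trans h hw) (D.c2p4_fin hu)

theorem below_lt {u v : Fr n} (hu : u ∈ D.W) (h : D.Ge u v) (hne : u ≠ v) : D.below v < D.below u := by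
  refine Set.ncard_lt_ncard ?_ (D.c2p4_fin hu)
  refine ⟨fun w hw => Relation.ReflTransGen.trans h hw, fun hsub => ?_⟩
  have h1 : D.Ge v u := hsub (show D.Ge u u from Relation.ReflTransGen.refl)
  exact hne (D.ge_antisymm hu h h1)

end Below

theorem c2p4_pos_sub (S' : ASt n) (θ : Shape n) (s t : ℝ) (β : Vec n) :
    dot (S'.pos θ t) β = dot (S'.pos θ s) β + dot (S'.fr (θ.val t - θ.val s)) β := by
  simp only [ASt.pos, map_sub, dot_add_left, dot_sub_left]
  ring

theorem c2p4_cont (S' : ASt n) (θ : Shape n) (β : Vec n) : Continuous fun t => dot (S'.pos θ t) β := by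
  have h1 : Continuous fun t => S'.pos θ t := by
    unfold ASt.pos
    exact continuous_const.add
      ((LinearMap.continuous_of_finiteDimensional (S'.fr : Vec n →ₗ[ℝ] Vec n)).comp θ.val_continuous)
  unfold dot
  exact continuous_finsetSum _ fun i _ => ((continuous_apply i).comp h1).mul continuous_const

/-- (M) how far the current frame can be used -/
theorem fold_move {θ : Shape n} (hθ : ∀ v ∈ θ, D.Cham v) {S' : ASt n} (hu : S'.fr ∈ D.W) {τ t₁ : ℝ}
    (h1 : τ < t₁) (hc : D.Cham (S'.pos θ τ)) (hmin : D.PMin (S'.pos θ τ) S'.fr) :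
    ∃ s, τ < s ∧ s ≤ t₁ ∧ (∀ t, τ ≤ t → t ≤ s → D.Cham (S'.pos θ t)) ∧
      (s = t₁ ∨ ¬ D.PMin (S'.pos θ s) S'.fr) := by
  classical
  set B : Finset (Vec n) := D.roots.filter (fun β => 0 < dot D.rho β ∧ dot (S'.fr D.rho) β < 0) with hB
  have hBmem : ∀ β, β ∈ B ↔ D.Pos β ∧ dot (S'.fr D.rho) β < 0 := by
    intro β
    simp only [hB, Finset.mem_filter, Pos]
    tauto
  -- monotonicity
  have hanti : ∀ β ∈ B, ∀ s t, s ≤ t → dot (S'.pos θ t) β ≤ dot (S'.pos θ s) β := by
    intro β hβ s t hst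
    obtain ⟨hp, hn⟩ := (hBmem β).1 hβ
    rw [c2p4_pos_sub S' θ s t β]
    have := D.dot_frame_nonpos hu hp.1 hn (D.val_sub_cham hθ hst)
    linarith
  -- the chamber condition from the bad roots at the end
  have key : ∀ s, τ ≤ s → (∀ β ∈ B, 0 ≤ dot (S'.pos θ s) β) →
      ∀ t, τ ≤ t → t ≤ s → D.Cham (S'.pos θ t) := by
    intro s _ hs t ht1 ht2 β hβ
    by_cases hb : β ∈ B
    · exact (hs β hb).trans (hanti β hb t s ht2)
    · have hne : dot (S'.fr D.rho) β ≠ 0 := by
        rw [D.dot_inv hu]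
        exact D.rho_reg _ (D.inv_map_roots hu hβ.1)
      have hpos : 0 < dot (S'.fr D.rho) β := by
        rcases lt_or_gt_of_ne hne with h | h
        · exact absurd ((hBmem β).2 ⟨hβ, h⟩) hb
        · exact h
      rw [c2p4_pos_sub S' θ τ t β]
      have h2 := D.dot_frame_nonneg hu hβ.1 hpos (D.val_sub_cham hθ ht1)
      have h3 := hc β hβ
      linarith
  have hstart : ∀ β ∈ B, 0 < dot (S'.pos θ τ) β := by
    intro β hβ
    obtain ⟨hp, hn⟩ := (hBmem β).1 hβ
    rcases (hc β hp).lt_or_eq with h | h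
    · exact h
    · exact absurd (hmin β hp h.symm) (not_lt.2 hn.le)
  by_cases hall : ∀ β ∈ B, 0 ≤ dot (S'.pos θ t₁) β
  · exact ⟨t₁, h1, le_rfl, key t₁ h1.le hall, Or.inl rfl⟩
  · push Not at hall
    obtain ⟨β₁, hβ₁, hneg⟩ := hall
    have hne : B.Nonempty := ⟨β₁, hβ₁⟩
    set φ : ℝ → ℝ := fun t => B.inf' hne (fun β => dot (S'.pos θ t) β) with hφ
    have hφc : Continuous φ := Continuous.finset_inf'_apply hne fun β _ => c2p4_cont S' θ β
    have hφτ : 0 < φ τ := (Finset.lt_inf'_iff hne).2 hstart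
    have hφ1 : φ t₁ < 0 := lt_of_le_of_lt (Finset.inf'_le _ hβ₁) hneg
    obtain ⟨s, hs, hs0⟩ := intermediate_value_Icc' h1.le hφc.continuousOn
      (show (0 : ℝ) ∈ Set.Icc (φ t₁) (φ τ) from ⟨hφ1.le, hφτ.le⟩)
    have hsτ : τ < s := by
      rcases hs.1.lt_or_eq with h | h
      · exact h
      · rw [← h] at hs0; linarith
    refine ⟨s, hsτ, hs.2, key s hs.1 (fun β hβ => ?_), Or.inr ?_⟩
    · have : φ s ≤ dot (S'.pos θ s) β := Finset.inf'_le _ hβ
      linarith
    · obtain ⟨β₀, hβ₀, e⟩ := Finset.exists_mem_eq_inf' hne (fun β => dot (S'.pos θ s) β)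
      obtain ⟨hp, hn⟩ := (hBmem β₀).1 hβ₀
      intro hpm
      have h0 : dot (S'.pos θ s) β₀ = 0 := by rw [← e]; exact hs0
      exact absurd (hpm β₀ hp h0) (not_lt.2 hn.le)

/-- the input of the folding procedure at time `τ` -/
structure FoldIn (θ : Shape n) (τ : ℝ) (S : ASt n) (l : List (ℝ × Fr n)) (g : Fr n) : Prop where
  tau_le : τ ≤ (θ.length : ℝ)
  fr0 : S.fr ∈ D.W
  fr_mem : ∀ p ∈ l, p.2 ∈ D.W
  times : ∀ p ∈ l, τ ≤ p.1 ∧ p.1 ≤ (θ.length : ℝ)
  sorted : l.Pairwise (fun p q => p.1 ≤ q.1)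
  adm : itAll θ (fun S t v => ∀ g ∈ D.W, D.Cham (g (S.pos θ t)) → D.Ge (g * S.fr) (g * v)) S l
  g_mem : g ∈ D.W
  cham : D.Cham (g (S.pos θ τ))

/-- the output of the folding procedure started at time `τ` -/
structure FoldOut (θ : Shape n) (τ : ℝ) (S : ASt n) (l : List (ℝ × Fr n)) (g : Fr n)
    (l' : List (ℝ × Fr n)) : Prop where
  fr_mem : ∀ p ∈ l', p.2 ∈ D.W
  times : ∀ p ∈ l', τ ≤ p.1 ∧ p.1 ≤ (θ.length : ℝ)
  sorted : l'.Pairwise (fun p q => p.1 ≤ q.1)
  chain : itAll θ (fun S _ v => D.Ge S.fr v) (S.tr g) l'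
  cham : ∀ t, τ ≤ t → t ≤ (θ.length : ℝ) → D.Cham (itPos θ (S.tr g) l' t)
  same : ∀ t, τ ≤ t → t ≤ (θ.length : ℝ) → ∃ g' ∈ D.W, itPos θ (S.tr g) l' t = g' (itPos θ S l t)

variable {D}

theorem FoldIn.stepA {θ : Shape n} {τ : ℝ} {S : ASt n} {v : Fr n} {l : List (ℝ × Fr n)} {g : Fr n}
    (h : D.FoldIn θ τ S ((τ, v) :: l) g) :
    D.FoldIn θ τ (S.jump θ τ v) l g ∧ D.Ge (g * S.fr) (g * v) := by
  have hv : v ∈ D.W := h.fr_mem (τ, v) (by simp)
  have hadm := h.adm
  simp only [itAll] at hadm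
  refine ⟨{ tau_le := h.tau_le, fr0 := hv, fr_mem := fun p hp => h.fr_mem p (List.mem_cons_of_mem _ hp),
            times := fun p hp => h.times p (List.mem_cons_of_mem _ hp),
            sorted := (List.pairwise_cons.1 h.sorted).2, adm := hadm.2, g_mem := h.g_mem,
            cham := by rw [ASt.jump_pos]; exact h.cham }, hadm.1 g h.g_mem h.cham⟩

theorem FoldOut.stepA {θ : Shape n} {τ : ℝ} {S : ASt n} {v : Fr n} {l : List (ℝ × Fr n)} {g : Fr n}
    {l' : List (ℝ × Fr n)} (h : D.FoldIn θ τ S ((τ, v) :: l) g) (h' : D.FoldOut θ τ (S.jump θ τ v) l g l') :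
    D.FoldOut θ τ S ((τ, v) :: l) g ((τ, g * v) :: l') := by
  have hv : v ∈ D.W := h.fr_mem (τ, v) (by simp)
  have hge := h.stepA.2
  refine { fr_mem := ?_, times := ?_, sorted := ?_, chain := ?_, cham := ?_, same := ?_ }
  · intro p hp
    rcases List.mem_cons.1 hp with rfl | hp
    · exact D.W.mul_mem h.g_mem hv
    · exact h'.fr_mem p hp
  · intro p hp
    rcases List.mem_cons.1 hp with rfl | hp
    · exact ⟨le_rfl, h.tau_le⟩
    · exact h'.times p hp
  · exact List.pairwise_cons.2 ⟨fun p hp => (h'.times p hp).1, h'.sorted⟩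
  · simp only [itAll]
    refine ⟨hge, ?_⟩
    rw [ASt.tr_jump]
    exact h'.chain
  · intro t h1 h2
    rcases h1.eq_or_lt with rfl | h1
    · rw [itPos_head θ _ _ _ (by
        intro p hp
        rcases List.mem_cons.1 hp with rfl | hp
        · exact le_rfl
        · exact (h'.times p hp).1), ASt.tr_pos]
      exact h.cham
    · rw [c2p4_itPos_cons_gt θ _ _ _ _ _ h1, ASt.tr_jump]
      exact h'.cham t h1.le h2
  · intro t h1 h2
    rcases h1.eq_or_lt with rfl | h1
    · refine ⟨g, h.g_mem, ?_⟩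
      rw [itPos_head θ _ _ _ (by
        intro p hp
        rcases List.mem_cons.1 hp with rfl | hp
        · exact le_rfl
        · exact (h'.times p hp).1), ASt.tr_pos, itPos_head θ _ _ _ (fun p hp => (h.times p hp).1)]
    · rw [c2p4_itPos_cons_gt θ _ _ _ _ _ h1, ASt.tr_jump, c2p4_itPos_cons_gt θ _ _ _ _ _ h1]
      exact h'.same t h1.le h2

theorem FoldIn.stepK {θ : Shape n} {τ : ℝ} {S : ASt n} {l : List (ℝ × Fr n)} {g k : Fr n}
    (h : D.FoldIn θ τ S l g) (hk : k ∈ D.W) (hkp : k (g (S.pos θ τ)) = g (S.pos θ τ)) :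
    D.FoldIn θ τ S l (k * g) := by
  exact { tau_le := h.tau_le, fr0 := h.fr0, fr_mem := h.fr_mem, times := h.times, sorted := h.sorted,
          adm := h.adm, g_mem := D.W.mul_mem hk h.g_mem,
          cham := by rw [LinearEquiv.mul_apply, hkp]; exact h.cham }

theorem FoldOut.stepK {θ : Shape n} {τ : ℝ} {S : ASt n} {l : List (ℝ × Fr n)} {g k : Fr n}
    {l' : List (ℝ × Fr n)} (h : D.FoldIn θ τ S l g) (hk : k ∈ D.W)
    (hkp : k (g (S.pos θ τ)) = g (S.pos θ τ)) (hge : D.Ge (g * S.fr) (k * (g * S.fr)))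
    (h' : D.FoldOut θ τ S l (k * g) l') : D.FoldOut θ τ S l g ((τ, k * (g * S.fr)) :: l') := by
  have hhead : ∀ p ∈ ((τ, k * (g * S.fr)) :: l'), τ ≤ p.1 := by
    intro p hp
    rcases List.mem_cons.1 hp with rfl | hp
    · exact le_rfl
    · exact (h'.times p hp).1
  refine { fr_mem := ?_, times := ?_, sorted := ?_, chain := ?_, cham := ?_, same := ?_ }
  · intro p hp
    rcases List.mem_cons.1 hp with rfl | hp
    · exact D.W.mul_mem hk (D.W.mul_mem h.g_mem h.fr0)
    · exact h'.fr_mem p hp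
  · intro p hp
    rcases List.mem_cons.1 hp with rfl | hp
    · exact ⟨le_rfl, h.tau_le⟩
    · exact h'.times p hp
  · exact List.pairwise_cons.2 ⟨fun p hp => (h'.times p hp).1, h'.sorted⟩
  · simp only [itAll]
    refine ⟨hge, ?_⟩
    rw [ASt.tr_rechamber S g k θ τ hkp]
    exact h'.chain
  · intro t h1 h2
    rcases h1.eq_or_lt with rfl | h1
    · rw [itPos_head θ _ _ _ hhead, ASt.tr_pos]
      exact h.cham
    · rw [c2p4_itPos_cons_gt θ _ _ _ _ _ h1, ASt.tr_rechamber S g k θ τ hkp]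
      exact h'.cham t h1.le h2
  · intro t h1 h2
    rcases h1.eq_or_lt with rfl | h1
    · refine ⟨g, h.g_mem, ?_⟩
      rw [itPos_head θ _ _ _ hhead, ASt.tr_pos, itPos_head θ _ _ _ (fun p hp => (h.times p hp).1)]
    · rw [c2p4_itPos_cons_gt θ _ _ _ _ _ h1, ASt.tr_rechamber S g k θ τ hkp]
      exact h'.same t h1.le h2

theorem FoldIn.stepM {θ : Shape n} {τ s : ℝ} {S : ASt n} {l : List (ℝ × Fr n)} {g : Fr n}
    (h : D.FoldIn θ τ S l g) (hs : s ≤ (θ.length : ℝ)) (hl : ∀ p ∈ l, s ≤ p.1)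
    (hc : D.Cham (g (S.pos θ s))) : D.FoldIn θ s S l g := by
  exact { tau_le := hs, fr0 := h.fr0, fr_mem := h.fr_mem, times := fun p hp => ⟨hl p hp, (h.times p hp).2⟩,
          sorted := h.sorted, adm := h.adm, g_mem := h.g_mem, cham := hc }

theorem FoldOut.stepM {θ : Shape n} {τ s : ℝ} {S : ASt n} {l : List (ℝ × Fr n)} {g : Fr n}
    {l' : List (ℝ × Fr n)} (h : D.FoldIn θ τ S l g) (hτs : τ ≤ s) (hl : ∀ p ∈ l, s ≤ p.1)
    (hc : ∀ t, τ ≤ t → t ≤ s → D.Cham (g (S.pos θ t))) (h' : D.FoldOut θ s S l g l') :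
    D.FoldOut θ τ S l g l' := by
  refine { fr_mem := h'.fr_mem, times := fun p hp => ⟨hτs.trans (h'.times p hp).1, (h'.times p hp).2⟩,
           sorted := h'.sorted, chain := h'.chain, cham := ?_, same := ?_ }
  · intro t h1 h2
    rcases le_total t s with h3 | h3
    · rw [itPos_head θ _ _ _ (fun p hp => h3.trans (h'.times p hp).1), ASt.tr_pos]
      exact hc t h1 h3
    · exact h'.cham t h3 h2
  · intro t h1 h2
    rcases le_total t s with h3 | h3
    · refine ⟨g, h.g_mem, ?_⟩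
      rw [itPos_head θ _ _ _ (fun p hp => h3.trans (h'.times p hp).1), ASt.tr_pos,
        itPos_head θ _ _ _ (fun p hp => h3.trans (hl p hp))]
    · exact h'.same t h3 h2

theorem FoldOut.nil {θ : Shape n} {S : ASt n} {g : Fr n} (h : D.FoldIn θ (θ.length : ℝ) S [] g) :
    D.FoldOut θ (θ.length : ℝ) S [] g [] := by
  refine { fr_mem := by simp, times := by simp, sorted := List.Pairwise.nil, chain := trivial,
           cham := ?_, same := ?_ }
  · intro t h1 h2
    obtain rfl : t = (θ.length : ℝ) := le_antisymm h2 h1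
    rw [itPos_head θ _ _ _ (by simp), ASt.tr_pos]
    exact h.cham
  · intro t h1 h2
    refine ⟨g, h.g_mem, ?_⟩
    rw [itPos_head θ _ _ _ (by simp), ASt.tr_pos, itPos_head θ _ _ _ (by simp)]

variable (D)

/-- the states at which the procedure acts without moving -/
def FoldEv (θ : Shape n) (τ : ℝ) (S : ASt n) (l : List (ℝ × Fr n)) (g : Fr n) : Prop :=
  (∃ v l₁, l = (τ, v) :: l₁) ∨ ¬ D.PMin (g (S.pos θ τ)) (g * S.fr) ∨ (l = [] ∧ τ = (θ.length : ℝ))

theorem fold_event (θ : Shape n) (N : ℕ)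
    (IH : ∀ τ S l g, D.FoldIn θ τ S l g → l.length + D.below (g * S.fr) < N →
      ∃ l', D.FoldOut θ τ S l g l')
    {τ : ℝ} {S : ASt n} {l : List (ℝ × Fr n)} {g : Fr n} (h : D.FoldIn θ τ S l g)
    (hN : l.length + D.below (g * S.fr) ≤ N) (hev : D.FoldEv θ τ S l g) :
    ∃ l', D.FoldOut θ τ S l g l' := by
  have hu : g * S.fr ∈ D.W := D.W.mul_mem h.g_mem h.fr0
  rcases hev with ⟨v, l₁, rfl⟩ | hmin | ⟨rfl, rfl⟩
  · obtain ⟨h1, hge⟩ := h.stepA
    have hb := D.below_le hu hge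
    obtain ⟨l', hl'⟩ := IH τ (S.jump θ τ v) l₁ g h1 (by
      rw [ASt.jump_fr]
      simp only [List.length_cons] at hN
      omega)
    exact ⟨_, FoldOut.stepA h hl'⟩
  · obtain ⟨k, hk, hkp, hkmin⟩ := D.exists_pmin h.cham hu
    have hge := D.ge_pmin h.cham hu hk hkp hkmin
    have hne : g * S.fr ≠ k * (g * S.fr) := fun e => hmin (by rw [e]; exact hkmin)
    have hlt := D.below_lt hu hge hne
    obtain ⟨l', hl'⟩ := IH τ S l (k * g) (h.stepK hk hkp) (by
      rw [mul_assoc]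
      omega)
    exact ⟨_, FoldOut.stepK h hk hkp hge hl'⟩
  · exact ⟨[], FoldOut.nil h⟩

theorem fold_aux {θ : Shape n} (hθ : ∀ v ∈ θ, D.Cham v) (N : ℕ) :
    ∀ τ S l g, D.FoldIn θ τ S l g → l.length + D.below (g * S.fr) < N →
      ∃ l', D.FoldOut θ τ S l g l' := by
  induction N with
  | zero => intro τ S l g _ h; omega
  | succ N IH =>
    intro τ S l g h hN
    have hN' : l.length + D.below (g * S.fr) ≤ N := by omega
    by_cases hev : D.FoldEv θ τ S l g
    · exact D.fold_event θ N IH h hN' hev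
    · simp only [FoldEv, not_or, not_not] at hev
      obtain ⟨hnj, hmin, hnt⟩ := hev
      have hu : (S.tr g).fr ∈ D.W := D.W.mul_mem h.g_mem h.fr0
      have hc : D.Cham ((S.tr g).pos θ τ) := by rw [ASt.tr_pos]; exact h.cham
      have hm : D.PMin ((S.tr g).pos θ τ) (S.tr g).fr := by rw [ASt.tr_pos]; exact hmin
      -- the next time
      obtain ⟨t₁, ht1, ht2, ht3, ht4⟩ : ∃ t₁ : ℝ, τ < t₁ ∧ t₁ ≤ (θ.length : ℝ) ∧ (∀ p ∈ l, t₁ ≤ p.1) ∧
          ((∃ v l₁, l = (t₁, v) :: l₁) ∨ (l = [] ∧ t₁ = (θ.length : ℝ))) := by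
        cases l with
        | nil =>
          refine ⟨θ.length, lt_of_le_of_ne h.tau_le fun e => hnt ⟨rfl, e⟩, le_rfl, by simp, Or.inr ⟨rfl, rfl⟩⟩
        | cons p l₁ =>
          obtain ⟨t, v⟩ := p
          have h1 := h.times (t, v) (by simp)
          refine ⟨t, lt_of_le_of_ne h1.1 fun e => hnj ⟨v, l₁, by rw [e]⟩, h1.2, ?_, Or.inl ⟨v, l₁, rfl⟩⟩
          intro q hq
          rcases List.mem_cons.1 hq with rfl | hq
          · exact le_rfl
          · exact (List.pairwise_cons.1 h.sorted).1 q hq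
      obtain ⟨s, hs1, hs2, hs3, hs4⟩ := D.fold_move hθ hu ht1 hc hm
      have hs3' : ∀ t, τ ≤ t → t ≤ s → D.Cham (g (S.pos θ t)) := fun t a b => by
        rw [← ASt.tr_pos]; exact hs3 t a b
      have hl : ∀ p ∈ l, s ≤ p.1 := fun p hp => hs2.trans (ht3 p hp)
      have hin : D.FoldIn θ s S l g := h.stepM (hs2.trans ht2) hl (hs3' s hs1.le le_rfl)
      have hev' : D.FoldEv θ s S l g := by
        rcases hs4 with rfl | hs4
        · rcases ht4 with h5 | h5
          · exact Or.inl h5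
          · exact Or.inr (Or.inr h5)
        · refine Or.inr (Or.inl ?_)
          rw [ASt.tr_pos] at hs4
          exact hs4
      obtain ⟨l', hl'⟩ := D.fold_event θ N IH hin hN' hev'
      exact ⟨l', FoldOut.stepM h hs1.le hl hs3' hl'⟩

/-- (P4') FOLDING, dominant shapes -/
theorem fold_cham {lam xi : Vec n} {θ : Shape n} {u0 : Fr n} {l : List (ℝ × Fr n)}
    (hθ : ∀ v ∈ θ, D.Cham v) (hlam : D.Cham lam) (hxi : D.Cham xi) (h : D.IsAdm lam θ u0 l)
    (hend : ∃ g ∈ D.W, itPos θ ⟨u0, lam⟩ l θ.length = g xi) :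
    ∃ u0' l', D.IsDec lam θ xi u0' l' ∧ D.SameFold θ ⟨u0, lam⟩ l ⟨u0', lam⟩ l' := by
  have hT : (0 : ℝ) ≤ (θ.length : ℝ) := Nat.cast_nonneg _
  have hin : D.FoldIn θ 0 ⟨u0, lam⟩ l 1 :=
    { tau_le := hT
      fr0 := h.u0_mem
      fr_mem := h.fr_mem
      times := h.times_mem
      sorted := h.sorted
      adm := h.adm
      g_mem := D.W.one_mem
      cham := by
        have : (⟨u0, lam⟩ : ASt n).pos θ 0 = lam := by
          simp [ASt.pos, Shape.val_nonpos θ le_rfl]
        rw [this]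
        exact hlam }
  obtain ⟨l', hl'⟩ := D.fold_aux hθ _ 0 ⟨u0, lam⟩ l 1 hin (Nat.lt_succ_self _)
  have e : (⟨u0, lam⟩ : ASt n).tr 1 = ⟨u0, lam⟩ := ASt.tr_one _
  have hchain := hl'.chain
  have hcham := hl'.cham
  have hsame := hl'.same
  rw [e] at hchain hcham hsame
  refine ⟨u0, l', ?_, fun t h0 h1 => hsame t h0 h1⟩
  refine { u0_mem := h.u0_mem, fr_mem := hl'.fr_mem, times_mem := hl'.times, sorted := hl'.sorted,
           chain := hchain, inCham := hcham, endpoint := ?_ }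
  obtain ⟨g', hg', e1⟩ := hsame θ.length hT le_rfl
  obtain ⟨g'', hg'', e2⟩ := hend
  have e3 : itPos θ ⟨u0, lam⟩ l' θ.length = (g' * g'') xi := by rw [e1, e2]; rfl
  have hc := hcham θ.length hT le_rfl
  rw [e3] at hc ⊢
  exact D.cham_fix hxi (D.W.mul_mem hg' hg'') hc

/-- (P4) FOLDING -/
theorem fold {lam xi : Vec n} {θ : Shape n} {u0 : Fr n} {l : List (ℝ × Fr n)}
    (hθ : ∀ v ∈ θ, D.Reg v) (hlam : D.Cham lam) (hxi : D.Cham xi) (h : D.IsAdm lam θ u0 l)
    (hend : ∃ g ∈ D.W, itPos θ ⟨u0, lam⟩ l θ.length = g xi) :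
    ∃ u0' l', D.IsDec lam θ xi u0' l' ∧ D.SameFold θ ⟨u0, lam⟩ l ⟨u0', lam⟩ l' :=
  D.fold_cham (fun v hv => (hθ v hv).cham) hlam hxi h hend

end RDatum

end Claimed.Agent.R282
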