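import Claimed.Agent.R282.S2C.P.MaxA

/-!
# 2C / L-P1c: for a fixed list of frames the admissible times form a compact set, the area is continuous   (architect helper78)

PLANS.  `P τ t := lam + u0 (θ.val t) + jumpSum θ u0 (mkIt vs τ) t` is jointly continuous (`jumpSum_mkIt_continuous`,
`Shape.val_continuous`, `Fr.continuous'`) and equals `itPos θ ⟨u0, lam⟩ (mkIt vs τ) t` for monotone `τ` (`itPos_formula`, `mkIt_sorted`).
* `decTimes_eq`: for monotone `τ` with values in `[0,T]`, `IsDec lam θ xi u0 (mkIt vs τ)` is equivalent to: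
  `u0 ∈ W`, `∀ v ∈ vs, v ∈ W`, `(u0 :: vs).IsChain Ge` (`itAll_frames_iff`, `mkIt_map_snd`; for `fr_mem` use
  `mkIt_mem` and, conversely, `mkIt_map_snd` + `List.mem_map`), `∀ t ∈ [0,T], Cham (P τ t)`, `P τ T = xi`.
* `isCompact_decTimes`: closed subset of the compact `Set.pi univ (fun _ => Icc 0 T)` (`isCompact_univ_pi`, `IsCompact.of_isClosed_subset`).
  Closedness: if the three `τ`-free conditions fail the set is empty; otherwise it is the intersection of
  `{τ | Monotone τ} = ⋂ i j (_ : i ≤ j), {τ | τ i ≤ τ j}` (`isClosed_iInter`, `isClosed_le`, `continuous_apply`),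
  `{τ | ∀ i, 0 ≤ τ i ∧ τ i ≤ T}`, `⋂ t β …, {τ | 0 ≤ dot (P τ t) β}` (`dot` is continuous: a finite sum of products, see how
  `phi_continuous` in `B/Cham.lean` does it) and `{τ | P τ T = xi}` (`isClosed_eq`).
* `area_continuousOn`: on `decTimes` the area is `∫ t in 0..T, phi (P τ t)` (`intervalIntegral.integral_congr`), which is continuous on
  the whole space: `intervalIntegral.continuous_parametric_intervalIntegral_of_continuous'` (`ℕ → ℝ` is first countable), `phi_continuous`.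
  (`ContinuousOn.congr`.)
RULES: edit in place, keep names and statements, helper lemmas with prefix `c2m_`.
-/

set_option autoImplicit false

namespace Claimed.Agent.R282.RDatum

variable {n : ℕ} (D : RDatum n)

/-- the admissible sequences of times for the frames `(u0, vs)` -/
def decTimes (lam : Vec n) (θ : Shape n) (xi : Vec n) (u0 : Fr n) (vs : List (Fr n)) : Set (ℕ → ℝ) :=
  {τ | Monotone τ ∧ (∀ i, 0 ≤ τ i ∧ τ i ≤ (θ.length : ℝ)) ∧ D.IsDec lam θ xi u0 (mkIt vs τ)}

/-- the position as a jointly continuous function of the times of the jumps and the time -/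
noncomputable def c2m_P (lam : Vec n) (θ : Shape n) (u0 : Fr n) (vs : List (Fr n)) (τ : ℕ → ℝ)
    (t : ℝ) : Vec n :=
  lam + u0 (θ.val t) + jumpSum θ u0 (mkIt vs τ) t

theorem c2m_P_continuous (lam : Vec n) (θ : Shape n) (u0 : Fr n) (vs : List (Fr n)) :
    Continuous (fun x : (ℕ → ℝ) × ℝ => c2m_P lam θ u0 vs x.1 x.2) :=
  (continuous_const.add (u0.continuous'.comp (θ.val_continuous.comp continuous_snd))).add
    (jumpSum_mkIt_continuous θ u0 vs)

theorem c2m_P_eq (lam : Vec n) (θ : Shape n) (u0 : Fr n) (vs : List (Fr n)) {τ : ℕ → ℝ}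
    (hτ : Monotone τ) (t : ℝ) : itPos θ ⟨u0, lam⟩ (mkIt vs τ) t = c2m_P lam θ u0 vs τ t :=
  itPos_formula θ u0 lam _ (mkIt_sorted vs hτ) t

theorem c2m_decTimes_eq (lam : Vec n) (θ : Shape n) (xi : Vec n) (u0 : Fr n) (vs : List (Fr n)) :
    D.decTimes lam θ xi u0 vs = {τ | Monotone τ} ∩ {τ | ∀ i, 0 ≤ τ i ∧ τ i ≤ (θ.length : ℝ)} ∩
      {_τ | u0 ∈ D.W ∧ (∀ v ∈ vs, v ∈ D.W) ∧ (u0 :: vs).IsChain D.Ge} ∩
      {τ | ∀ t, 0 ≤ t → t ≤ (θ.length : ℝ) → ∀ β, D.Pos β → 0 ≤ dot (c2m_P lam θ u0 vs τ t) β} ∩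
      {τ | c2m_P lam θ u0 vs τ θ.length = xi} := by
  ext τ
  constructor
  · rintro ⟨hm, hb, hd⟩
    refine ⟨⟨⟨⟨hm, hb⟩, hd.u0_mem, ?_, ?_⟩, ?_⟩, ?_⟩
    · intro v hv
      rw [← mkIt_map_snd vs τ] at hv
      obtain ⟨p, hp, rfl⟩ := List.mem_map.1 hv
      exact hd.fr_mem p hp
    · have := (itAll_frames_iff θ D.Ge ⟨u0, lam⟩ _).1 hd.chain
      rwa [mkIt_map_snd] at this
    · intro t h0 h1 β hβ
      rw [← c2m_P_eq lam θ u0 vs hm]
      exact hd.inCham t h0 h1 β hβ
    · change c2m_P lam θ u0 vs τ θ.length = xi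
      rw [← c2m_P_eq lam θ u0 vs hm]
      exact hd.endpoint
  · rintro ⟨⟨⟨⟨hm, hb⟩, hu, hv, hc⟩, hcham⟩, hend⟩
    refine ⟨hm, hb, ⟨hu, fun p hp => hv _ (mkIt_mem hp).2, ?_, mkIt_sorted vs hm⟩, ?_, ?_, ?_⟩
    · intro p hp
      obtain ⟨⟨i, hi⟩, -⟩ := mkIt_mem hp
      rw [hi]
      exact hb i
    · rw [itAll_frames_iff, mkIt_map_snd]
      exact hc
    · intro t h0 h1 β hβ
      rw [c2m_P_eq lam θ u0 vs hm]
      exact hcham t h0 h1 β hβ
    · rw [c2m_P_eq lam θ u0 vs hm]
      exact hend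

theorem isCompact_decTimes (lam : Vec n) (θ : Shape n) (xi : Vec n) (u0 : Fr n) (vs : List (Fr n)) :
    IsCompact (D.decTimes lam θ xi u0 vs) := by
  have hK : IsCompact (Set.pi Set.univ fun _ : ℕ => Set.Icc (0 : ℝ) (θ.length : ℝ)) :=
    isCompact_univ_pi fun _ => isCompact_Icc
  have hPc : ∀ t : ℝ, Continuous fun τ : ℕ → ℝ => c2m_P lam θ u0 vs τ t := fun t =>
    (c2m_P_continuous lam θ u0 vs).comp (continuous_id.prodMk continuous_const)
  refine hK.of_isClosed_subset ?_ ?_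
  · rw [c2m_decTimes_eq]
    refine (((?_ : IsClosed _).inter ?_).inter isClosed_const).inter ?_ |>.inter ?_
    · have : {τ : ℕ → ℝ | Monotone τ} = ⋂ (i : ℕ) (j : ℕ) (_ : i ≤ j), {τ | τ i ≤ τ j} := by
        ext τ
        simp only [Set.mem_iInter]
        exact ⟨fun h i j hij => h hij, fun h i j hij => h i j hij⟩
      rw [this]
      exact isClosed_iInter fun i => isClosed_iInter fun j => isClosed_iInter fun _ =>
        isClosed_le (continuous_apply i) (continuous_apply j)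
    · have : {τ : ℕ → ℝ | ∀ i, 0 ≤ τ i ∧ τ i ≤ (θ.length : ℝ)}
          = ⋂ i : ℕ, ({τ | 0 ≤ τ i} ∩ {τ | τ i ≤ (θ.length : ℝ)}) := by
        ext τ
        simp only [Set.mem_iInter]
        rfl
      rw [this]
      exact isClosed_iInter fun i => (isClosed_le continuous_const (continuous_apply i)).inter
        (isClosed_le (continuous_apply i) continuous_const)
    · have : {τ : ℕ → ℝ | ∀ t, 0 ≤ t → t ≤ (θ.length : ℝ) → ∀ β, D.Pos β →
          0 ≤ dot (c2m_P lam θ u0 vs τ t) β}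
          = ⋂ (t : ℝ) (_ : 0 ≤ t) (_ : t ≤ (θ.length : ℝ)) (β : Vec n) (_ : D.Pos β),
            {τ | 0 ≤ dot (c2m_P lam θ u0 vs τ t) β} := by
        ext τ
        simp only [Set.mem_iInter]
        rfl
      rw [this]
      exact isClosed_iInter fun t => isClosed_iInter fun _ => isClosed_iInter fun _ =>
        isClosed_iInter fun β => isClosed_iInter fun _ =>
          isClosed_le continuous_const ((continuous_dot_left β).comp (hPc t))
    · exact isClosed_eq (hPc _) continuous_const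
  · intro τ hτ i _
    exact hτ.2.1 i

theorem area_continuousOn (lam : Vec n) (θ : Shape n) (xi : Vec n) (u0 : Fr n) (vs : List (Fr n)) :
    ContinuousOn (fun τ => D.area θ ⟨u0, lam⟩ (mkIt vs τ)) (D.decTimes lam θ xi u0 vs) := by
  have hc : Continuous (Function.uncurry fun (τ : ℕ → ℝ) (t : ℝ) => D.phi (c2m_P lam θ u0 vs τ t)) :=
    D.phi_continuous.comp (c2m_P_continuous lam θ u0 vs)
  have hF : Continuous fun τ : ℕ → ℝ =>
      ∫ t in (0 : ℝ)..(θ.length : ℝ), D.phi (c2m_P lam θ u0 vs τ t) :=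
    intervalIntegral.continuous_parametric_intervalIntegral_of_continuous' hc 0 _
  refine hF.continuousOn.congr fun τ hτ => ?_
  unfold area
  simp only [c2m_P_eq lam θ u0 vs hτ.1]

end Claimed.Agent.R282.RDatum
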