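import Claimed.Agent.R282.S2C.P.MaxB
import Claimed.Agent.R282.S2C.P.MaxC

/-!
# 2C / BP-P1: compactness of the folded path class, existence of an area maximum

GLUE (proved here, helper78) from the leaves
* `MaxA.lean` (L-P1a): `mkIt vs τ` = itinerary with frames `vs` and times `τ : ℕ → ℝ`; sortedness, surjectivity, joint continuity;
* `MaxB.lean` (L-P1b): `dec_reduce`: same path, consecutive frames differ, length `< |W|`;
* `MaxC.lean` (L-P1c): `decTimes` compact, area continuous on it.
The set of all areas is a finite union of continuous images of compact sets, hence compact; it has a greatest element.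
No regularity of the shape is needed.
-/

set_option autoImplicit false

namespace Claimed.Agent.R282.RDatum

variable {n : ℕ} (D : RDatum n)

/-- (P1) compactness: an area maximum exists -/
theorem exists_max {lam xi : Vec n} {θ : Shape n} (h : D.HasDec lam θ xi) :
    ∃ u0 l, D.IsMaxDec lam θ xi u0 l := by
  classical
  have := D.finW
  set A : Set ℝ := {r | ∃ u0 l, D.IsDec lam θ xi u0 l ∧ r = D.area θ ⟨u0, lam⟩ l} with hA
  have hfin : {ws : List D.W | ws.length < Nat.card D.W}.Finite := List.finite_length_lt _ _
  have hA' : A = ⋃ u0 : D.W, ⋃ ws ∈ {ws : List D.W | ws.length < Nat.card D.W},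
      (fun τ => D.area θ ⟨(u0 : Fr n), lam⟩ (mkIt (ws.map Subtype.val) τ)) ''
        D.decTimes lam θ xi u0 (ws.map Subtype.val) := by
    ext r
    constructor
    · rintro ⟨u0, l, hl, rfl⟩
      obtain ⟨l', hl', hpos, hlen⟩ := D.dec_reduce hl
      obtain ⟨τ, hmono, hτ, hmk⟩ := exists_mkIt (Nat.cast_nonneg θ.length) l' hl'.sorted hl'.times_mem
      obtain ⟨ws, hws⟩ : ∃ ws : List D.W, ws.map Subtype.val = l'.map Prod.snd := by
        have hmem : ∀ v ∈ l'.map Prod.snd, v ∈ D.W := by
          intro v hv
          obtain ⟨p, hp, rfl⟩ := List.mem_map.1 hv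
          exact hl'.fr_mem p hp
        generalize l'.map Prod.snd = vs at hmem
        lift vs to List D.W using hmem
        exact ⟨vs, rfl⟩
      simp only [Set.mem_iUnion]
      refine ⟨⟨u0, hl.u0_mem⟩, ws, ?_, τ, ⟨hmono, hτ, ?_⟩, ?_⟩
      · have : ws.length = l'.length := by
          have := congrArg List.length hws
          simpa using this
        show ws.length < _
        rw [this]
        exact hlen
      · rw [hws, hmk]
        exact hl'
      · simp only
        rw [hws, hmk]
        unfold area
        simp only [hpos]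
    · simp only [Set.mem_iUnion]
      rintro ⟨u0, ws, -, τ, hτ, rfl⟩
      exact ⟨u0, _, hτ.2.2, rfl⟩
  have hcomp : IsCompact A := by
    rw [hA']
    exact isCompact_iUnion fun u0 => hfin.isCompact_biUnion fun ws _ =>
      (D.isCompact_decTimes lam θ xi u0 _).image_of_continuousOn (D.area_continuousOn lam θ xi u0 _)
  have hne : A.Nonempty := by
    obtain ⟨u0, l, hl⟩ := h
    exact ⟨_, u0, l, hl, rfl⟩
  obtain ⟨r, ⟨u0, l, hl, rfl⟩, hmax⟩ := hcomp.exists_isGreatest hne
  exact ⟨u0, l, hl, fun u0' l' hl' => hmax ⟨u0', l', hl', rfl⟩⟩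

end Claimed.Agent.R282.RDatum
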