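import Claimed.Agent.R282.S2C.P.Area
import Claimed.Agent.R282.S2C.B.Ge

/-!
# 2C / L-P1a: itineraries with a fixed list of frames and a sequence of times   (architect helper78)

`mkIt vs τ = [(τ 0, vs₀), (τ 1, vs₁), …]`.  The times are a sequence `τ : ℕ → ℝ` (only the first `vs.length` entries are
used): no `Fin`, and `[0,T]^ℕ` is compact (Tychonoff).

PLANS (all by induction on the list, generalising `τ` / the state; 10-30 lines each).
* `mkIt_map_snd`, `mkIt_mem`: induction on `vs` generalising `τ`.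
* `mkIt_sorted`: `List.pairwise_cons`; for the head use `mkIt_mem` (`q.1 = τ (i+1) ≥ τ 0`); the shifted sequence is monotone.
* `exists_mkIt`: induction on `l`.  `[]`: `τ = fun _ => T`.  `p :: l`: take `τ'` for `l`, `τ = Nat.rec p.1 (fun i _ => τ' i)`
  (i.e. `τ 0 = p.1`, `τ (i+1) = τ' i`); monotone by `monotone_nat_of_le_succ`; `p.1 ≤ τ' 0`: if `l = []` then `τ' 0 = T`
  - so STRENGTHEN the induction: `∀ s, (∀ q ∈ l, s ≤ q.1) → s ≤ T → s ≤ τ' 0` (add it to the induction hypothesis).
* `jumpSum_mkIt_continuous`: prove the more flexible statement: for every topological space `X`, `f : X → ℕ → ℝ` continuous,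
  `g : X → ℝ` continuous, `x ↦ jumpSum θ a (mkIt vs (f x)) (g x)` is continuous (induction on `vs` generalising `a f`;
  `Shape.val_continuous`, `Fr.continuous'`, `continuous_apply`, `continuous_pi`).
* `itAll_frames_iff`: induction on `l` generalising `S` (`List.isChain_cons_cons`, `(S.jump θ t v).fr = v` is `rfl`).
RULES: edit in place, keep names and statements, helper lemmas with prefix `c2m_`.
-/

set_option autoImplicit false

namespace Claimed.Agent.R282

variable {n : ℕ}

/-- the itinerary with frames `vs` and times `τ 0, τ 1, …` -/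
def mkIt : List (Fr n) → (ℕ → ℝ) → List (ℝ × Fr n)
  | [], _ => []
  | v :: vs, τ => (τ 0, v) :: mkIt vs (fun j => τ (j + 1))

theorem mkIt_map_snd (vs : List (Fr n)) (τ : ℕ → ℝ) : (mkIt vs τ).map Prod.snd = vs := by
  induction vs generalizing τ with
  | nil => rfl
  | cons v vs ih => simp only [mkIt, List.map_cons, ih]

theorem mkIt_mem {vs : List (Fr n)} {τ : ℕ → ℝ} {p : ℝ × Fr n} (h : p ∈ mkIt vs τ) :
    (∃ i, p.1 = τ i) ∧ p.2 ∈ vs := by
  induction vs generalizing τ with
  | nil => exact absurd h List.not_mem_nil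
  | cons v vs ih =>
    rcases List.mem_cons.1 h with rfl | h
    · exact ⟨⟨0, rfl⟩, List.mem_cons_self ..⟩
    · obtain ⟨⟨i, hi⟩, h2⟩ := ih h
      exact ⟨⟨i + 1, hi⟩, List.mem_cons_of_mem _ h2⟩

theorem mkIt_sorted (vs : List (Fr n)) {τ : ℕ → ℝ} (hτ : Monotone τ) :
    (mkIt vs τ).Pairwise (fun p q => p.1 ≤ q.1) := by
  induction vs generalizing τ with
  | nil => exact List.Pairwise.nil
  | cons v vs ih =>
    rw [mkIt, List.pairwise_cons]
    refine ⟨fun q hq => ?_, ih (fun i j hij => hτ (Nat.succ_le_succ hij))⟩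
    obtain ⟨⟨i, hi⟩, -⟩ := mkIt_mem hq
    rw [hi]
    exact hτ (Nat.zero_le _)

theorem c2m_exists_mkIt {T : ℝ} (hT : 0 ≤ T) (l : List (ℝ × Fr n))
    (hs : l.Pairwise (fun p q => p.1 ≤ q.1)) (ht : ∀ p ∈ l, 0 ≤ p.1 ∧ p.1 ≤ T) :
    ∃ τ : ℕ → ℝ, Monotone τ ∧ (∀ i, 0 ≤ τ i ∧ τ i ≤ T) ∧ mkIt (l.map Prod.snd) τ = l ∧
      ∀ s, (∀ q ∈ l, s ≤ q.1) → s ≤ T → s ≤ τ 0 := by
  induction l with
  | nil => exact ⟨fun _ => T, monotone_const, fun _ => ⟨hT, le_rfl⟩, rfl, fun s _ hs => hs⟩
  | cons p l ih =>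
    rw [List.pairwise_cons] at hs
    obtain ⟨τ', hm, hb, hmk, hst⟩ := ih hs.2 fun q hq => ht q (List.mem_cons_of_mem _ hq)
    have hp := ht p (List.mem_cons_self ..)
    refine ⟨fun i => Nat.casesOn i p.1 τ', ?_, ?_, ?_, ?_⟩
    · apply monotone_nat_of_le_succ
      intro i
      cases i with
      | zero => exact hst p.1 hs.1 hp.2
      | succ i => exact hm (Nat.le_succ i)
    · intro i
      cases i with
      | zero => exact hp
      | succ i => exact hb i
    · simp only [List.map_cons, mkIt]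
      rw [hmk]
      rfl
    · intro s hs' _
      exact hs' p (List.mem_cons_self ..)

/-- every sorted itinerary with times in `[0,T]` is of the form `mkIt` with a monotone sequence in `[0,T]` -/
theorem exists_mkIt {T : ℝ} (hT : 0 ≤ T) (l : List (ℝ × Fr n)) (hs : l.Pairwise (fun p q => p.1 ≤ q.1))
    (ht : ∀ p ∈ l, 0 ≤ p.1 ∧ p.1 ≤ T) :
    ∃ τ : ℕ → ℝ, Monotone τ ∧ (∀ i, 0 ≤ τ i ∧ τ i ≤ T) ∧ mkIt (l.map Prod.snd) τ = l := by
  obtain ⟨τ, h1, h2, h3, -⟩ := c2m_exists_mkIt hT l hs ht
  exact ⟨τ, h1, h2, h3⟩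

theorem c2m_jumpSum_continuous {X : Type*} [TopologicalSpace X] (θ : Shape n) (a : Fr n)
    (vs : List (Fr n)) {f : X → ℕ → ℝ} (hf : Continuous f) {g : X → ℝ} (hg : Continuous g) :
    Continuous (fun x => jumpSum θ a (mkIt vs (f x)) (g x)) := by
  induction vs generalizing a f with
  | nil => exact continuous_const
  | cons v vs ih =>
    have h0 : Continuous fun x => f x 0 := (continuous_apply 0).comp hf
    have h1 : Continuous fun x => θ.val (g x) - θ.val (min (g x) (f x 0)) :=
      (θ.val_continuous.comp hg).sub (θ.val_continuous.comp (hg.min h0))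
    have h2 : Continuous fun x => (fun j => f x (j + 1)) :=
      continuous_pi fun j => (continuous_apply (j + 1)).comp hf
    exact ((v.continuous'.comp h1).sub (a.continuous'.comp h1)).add (ih v h2)

/-- joint continuity in the times of the jumps and the time -/
theorem jumpSum_mkIt_continuous (θ : Shape n) (a : Fr n) (vs : List (Fr n)) :
    Continuous (fun x : (ℕ → ℝ) × ℝ => jumpSum θ a (mkIt vs x.1) x.2) :=
  c2m_jumpSum_continuous θ a vs continuous_fst continuous_snd

/-- a property of the consecutive frames only -/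
theorem itAll_frames_iff (θ : Shape n) (R : Fr n → Fr n → Prop) (S : ASt n) (l : List (ℝ × Fr n)) :
    itAll θ (fun S' _ v => R S'.fr v) S l ↔ (S.fr :: l.map Prod.snd).IsChain R := by
  induction l generalizing S with
  | nil => simp [itAll]
  | cons p l ih =>
    rw [itAll, List.map_cons, List.isChain_cons_cons, ih]
    rfl

end Claimed.Agent.R282
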