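import Claimed.Agent.R282.S2C.P.MaxA

/-!
# 2C / L-P1b: reduction of a decreasing itinerary: consecutive frames differ, length `< |W|`   (architect helper78)

PLANS.
* `redIt a l` deletes the jumps that do not change the frame.
* `redIt_sublist`: induction on `l` generalising `a` (`List.Sublist.cons`, `List.Sublist.cons₂`).
* `redIt_itPos`: induction on `l` generalising `a c`.  `p.2 = a`: `itPos_drop` (needs `∀ q ∈ l, p.1 ≤ q.1` from `Pairwise`), then IH.
  `p.2 ≠ a`: `itPos_cons` on both sides, IH for the state `ASt.jump ⟨a,c⟩ θ p.1 p.2 = ⟨p.2, _⟩` (`rfl`).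
* `redIt_chain`: for a REFLEXIVE-free statement: if `(a :: l.map snd).IsChain R` then
  `(a :: (redIt a l).map snd).IsChain (fun x y => R x y ∧ x ≠ y)`: induction on `l` generalising `a`.
* `chain_length_lt`: `f v = dot ρ (v ρ)` is strictly increasing along the chain (`ge_dot_lt` with `d = f = ρ`, `rho_reg'`; all frames
  are in `W` by hypothesis), so `(u0 :: vs).Pairwise (f · < f ·)` (`List.isChain_iff_pairwise` for the transitive relation, after
  `List.IsChain.imp`-ing with membership; or a direct induction), hence `Nodup`; lift the list to `List D.W`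
  (`lift … to List D.W`, or `List.pmap`) and use `List.Nodup.length_le_card` + `Nat.card_eq_fintype_card`.
* `dec_reduce`: `l' = redIt u0 l`; `IsIt` fields by `redIt_sublist` (`List.Sublist.subset`, `List.Pairwise.sublist`); `chain` by
  `itAll_frames_iff` + `redIt_chain`; `inCham`, `endpoint` by `redIt_itPos`.
RULES: edit in place, keep names and statements, helper lemmas with prefix `c2m_`.
-/

set_option autoImplicit false

namespace Claimed.Agent.R282

variable {n : ℕ}

open Classical in
/-- delete the jumps that do not change the frame -/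
noncomputable def redIt : Fr n → List (ℝ × Fr n) → List (ℝ × Fr n)
  | _, [] => []
  | a, p :: l => if p.2 = a then redIt a l else p :: redIt p.2 l

theorem redIt_sublist (a : Fr n) (l : List (ℝ × Fr n)) : (redIt a l).Sublist l := by
  induction l generalizing a with
  | nil => exact List.Sublist.refl _
  | cons p l ih =>
    rw [redIt]
    split_ifs
    · exact (ih a).cons p
    · exact (ih p.2).cons_cons p

theorem redIt_itPos (θ : Shape n) (a : Fr n) (c : Vec n) (l : List (ℝ × Fr n))
    (hs : l.Pairwise (fun p q => p.1 ≤ q.1)) (t : ℝ) :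
    itPos θ ⟨a, c⟩ (redIt a l) t = itPos θ ⟨a, c⟩ l t := by
  induction l generalizing a c with
  | nil => rfl
  | cons p l ih =>
    rw [List.pairwise_cons] at hs
    rw [redIt]
    split_ifs with h
    · rw [ih a c hs.2]
      have e : p = (p.1, (⟨a, c⟩ : ASt n).fr) := by
        rw [← h]
      rw [e]
      exact (itPos_drop θ ⟨a, c⟩ p.1 l hs.1 t).symm
    · rw [itPos_cons, itPos_cons]
      split_ifs
      · rfl
      · exact ih p.2 _ hs.2

theorem redIt_chain (R : Fr n → Fr n → Prop) (a : Fr n) (l : List (ℝ × Fr n))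
    (h : (a :: l.map Prod.snd).IsChain R) :
    (a :: (redIt a l).map Prod.snd).IsChain (fun x y => R x y ∧ x ≠ y) := by
  induction l generalizing a with
  | nil => exact List.IsChain.singleton _
  | cons p l ih =>
    rw [List.map_cons, List.isChain_cons_cons] at h
    rw [redIt]
    split_ifs with hp
    · exact ih a (hp ▸ h.2)
    · rw [List.map_cons, List.isChain_cons_cons]
      exact ⟨⟨h.1, fun e => hp e.symm⟩, ih p.2 h.2⟩

namespace RDatum

variable (D : RDatum n)

theorem c2m_chain_lt {u0 : Fr n} {vs : List (Fr n)} (hu : u0 ∈ D.W) (hv : ∀ v ∈ vs, v ∈ D.W)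
    (h : (u0 :: vs).IsChain (fun x y => D.Ge x y ∧ x ≠ y)) :
    (u0 :: vs).IsChain (fun x y => dot D.rho (x D.rho) < dot D.rho (y D.rho)) := by
  induction vs generalizing u0 with
  | nil => exact List.IsChain.singleton _
  | cons v vs ih =>
    rw [List.isChain_cons_cons] at h ⊢
    exact ⟨D.ge_dot_lt hu h.1.1 h.1.2 D.rho_reg' D.rho_reg',
      ih (hv v (List.mem_cons_self ..)) (fun w hw => hv w (List.mem_cons_of_mem _ hw)) h.2⟩

/-- a strictly Bruhat-decreasing chain in `W` has at most `|W|` elements -/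
theorem chain_length_lt {u0 : Fr n} {vs : List (Fr n)} (hu : u0 ∈ D.W) (hv : ∀ v ∈ vs, v ∈ D.W)
    (h : (u0 :: vs).IsChain (fun x y => D.Ge x y ∧ x ≠ y)) : vs.length < Nat.card D.W := by
  classical
  have := D.finW
  have : Fintype D.W := Fintype.ofFinite _
  have h1 := D.c2m_chain_lt hu hv h
  have : IsTrans (Fr n) (fun x y => dot D.rho (x D.rho) < dot D.rho (y D.rho)) :=
    ⟨fun _ _ _ h1 h2 => lt_trans h1 h2⟩
  have h2 : (u0 :: vs).Pairwise (fun x y => dot D.rho (x D.rho) < dot D.rho (y D.rho)) :=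
    List.isChain_iff_pairwise.1 h1
  have h3 : (u0 :: vs).Nodup := h2.imp fun {x y} hxy e => by
    rw [e] at hxy
    exact lt_irrefl _ hxy
  have hmem : ∀ v ∈ u0 :: vs, v ∈ D.W := by
    intro v hv'
    rcases List.mem_cons.1 hv' with rfl | hv'
    · exact hu
    · exact hv v hv'
  have hlen : (u0 :: vs).length ≤ Nat.card D.W := by
    generalize u0 :: vs = ws at h3 hmem
    lift ws to List D.W using hmem
    rw [List.length_map, Nat.card_eq_fintype_card]
    exact (List.Nodup.of_map _ h3).length_le_card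
  rw [List.length_cons] at hlen
  omega

/-- (a) of BP-P1 -/
theorem dec_reduce {lam xi : Vec n} {θ : Shape n} {u0 : Fr n} {l : List (ℝ × Fr n)}
    (h : D.IsDec lam θ xi u0 l) :
    ∃ l', D.IsDec lam θ xi u0 l' ∧ (∀ t, itPos θ ⟨u0, lam⟩ l' t = itPos θ ⟨u0, lam⟩ l t) ∧
      l'.length < Nat.card D.W := by
  have hsub := redIt_sublist u0 l
  have hpos := redIt_itPos θ u0 lam l h.sorted
  have hch : (u0 :: (redIt u0 l).map Prod.snd).IsChain (fun x y => D.Ge x y ∧ x ≠ y) :=
    redIt_chain D.Ge u0 l ((itAll_frames_iff θ D.Ge ⟨u0, lam⟩ l).1 h.chain)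
  have hfr : ∀ p ∈ redIt u0 l, p.2 ∈ D.W := fun p hp => h.fr_mem p (hsub.subset hp)
  refine ⟨redIt u0 l, ⟨⟨h.u0_mem, hfr, fun p hp => h.times_mem p (hsub.subset hp),
    h.sorted.sublist hsub⟩, ?_, ?_, ?_⟩, hpos, ?_⟩
  · exact (itAll_frames_iff θ D.Ge ⟨u0, lam⟩ _).2 (hch.imp fun _ _ hxy => hxy.1)
  · intro t h0 h1
    rw [hpos]
    exact h.inCham t h0 h1
  · rw [hpos]
    exact h.endpoint
  · have := D.chain_length_lt h.u0_mem (fun v hv => by
      obtain ⟨p, hp, rfl⟩ := List.mem_map.1 hv
      exact hfr p hp) hch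
    rwa [List.length_map] at this

end RDatum

end Claimed.Agent.R282
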