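import Claimed.Agent.R282.S2C.B.Cham

/-!
# 2C / L-P0a: calculus of `Shape.val` (foundation)

`θ.val t = ∑_j clamp(t - j, 0, 1) • θ_j`, defined by recursion on the list.
PLAN: every statement by induction on `θ` (generalising `t`, `s`, `k`), using
`clamp t := max 0 (min t 1)`: monotone, 1-Lipschitz, `= 0` for `t ≤ 0`, `= 1` for `1 ≤ t`, `= t` on `[0,1]`.
* `val_sub_cham`: `val t - val s = ∑ (clamp(t-j) - clamp(s-j)) θ_j`, coefficients `≥ 0`
  (`Cham` is closed under `+` and nonnegative multiples; prove these two closure lemmas here).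
* `val_sub_reg`: moreover some coefficient is `> 0` when `0 ≤ s < t ≤ length`
  (`Reg + Cham ⊆ Reg`, positive multiple of `Reg` is `Reg`).
* `rnorm_val_sub_le`: each coefficient is `≤ |t - s|`.
* `val_tendsto`: induction on `θ`, continuity of `clamp`; the shapes `θS m` have the same length:
  destructure them with `List.length_eq...`/`getD`.
Size: ~350 lines.
-/

set_option autoImplicit false

namespace Claimed.Agent.R282

variable {n : ℕ}

theorem c2p_clamp_mono {s t : ℝ} (h : s ≤ t) :
    0 ≤ max 0 (min t 1) - max 0 (min s 1) ∧ max 0 (min t 1) - max 0 (min s 1) ≤ t - s := by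
  simp only [max_def, min_def]
  split_ifs <;> constructor <;> linarith

theorem c2p_clamp_abs (s t : ℝ) : |max 0 (min t 1) - max 0 (min s 1)| ≤ |t - s| := by
  rcases le_total s t with h | h
  · obtain ⟨h1, h2⟩ := c2p_clamp_mono h
    rw [abs_of_nonneg h1, abs_of_nonneg (sub_nonneg.2 h)]
    exact h2
  · obtain ⟨h1, h2⟩ := c2p_clamp_mono h
    rw [abs_sub_comm, abs_sub_comm t, abs_of_nonneg h1, abs_of_nonneg (sub_nonneg.2 h)]
    exact h2

theorem c2p_clamp_nonpos {t : ℝ} (h : t ≤ 0) : max 0 (min t 1) = 0 :=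
  max_eq_left ((min_le_left _ _).trans h)

theorem c2p_clamp_ge {t : ℝ} (h : 1 ≤ t) : max 0 (min t 1) = 1 := by
  rw [min_eq_right h]
  exact max_eq_right zero_le_one

theorem c2p_clamp_mid {t : ℝ} (h0 : 0 ≤ t) (h1 : t ≤ 1) : max 0 (min t 1) = t := by
  rw [min_eq_left h1]
  exact max_eq_right h0

theorem Shape.val_cons (v : Vec n) (θ : Shape n) (t : ℝ) :
    Shape.val (v :: θ) t = (max 0 (min t 1)) • v + Shape.val θ (t - 1) := rfl

theorem Shape.val_nil (t : ℝ) : Shape.val ([] : Shape n) t = 0 := rfl

theorem Shape.val_nonpos (θ : Shape n) {t : ℝ} (ht : t ≤ 0) : θ.val t = 0 := by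
  induction θ generalizing t with
  | nil => rfl
  | cons v θ ih =>
    rw [Shape.val_cons, c2p_clamp_nonpos ht, zero_smul, zero_add]
    exact ih (by linarith)

theorem Shape.val_ge (θ : Shape n) {t : ℝ} (ht : (θ.length : ℝ) ≤ t) : θ.val t = θ.sum := by
  induction θ generalizing t with
  | nil => rfl
  | cons v θ ih =>
    rw [List.length_cons, Nat.cast_add, Nat.cast_one] at ht
    have h1 : (1 : ℝ) ≤ t := by
      have : (0 : ℝ) ≤ (θ.length : ℝ) := Nat.cast_nonneg _
      linarith
    rw [Shape.val_cons, c2p_clamp_ge h1, one_smul, List.sum_cons, ih (by linarith)]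

theorem Shape.val_continuous (θ : Shape n) : Continuous θ.val := by
  induction θ with
  | nil => exact continuous_const
  | cons v θ ih =>
    have h1 : Continuous fun t : ℝ => (max 0 (min t 1)) • v :=
      (continuous_const.max (continuous_id.min continuous_const)).smul continuous_const
    have h2 : Continuous fun t : ℝ => Shape.val θ (t - 1) :=
      ih.comp (continuous_id.sub continuous_const)
    exact h1.add h2

/-- on the `k`-th piece the shape is affine with slope `θ_k` -/
theorem Shape.val_piece (θ : Shape n) (k : ℕ) {t : ℝ} (h1 : (k : ℝ) ≤ t) (h2 : t ≤ k + 1) :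
    θ.val t = θ.val k + (t - k) • θ.getD k 0 := by
  induction θ generalizing k t with
  | nil => simp [Shape.val_nil]
  | cons v θ ih =>
    cases k with
    | zero =>
      rw [Nat.cast_zero] at h1 h2 ⊢
      rw [zero_add] at h2
      rw [Shape.val_cons, Shape.val_cons, c2p_clamp_mid h1 h2, c2p_clamp_nonpos le_rfl,
        Shape.val_nonpos θ (by linarith), Shape.val_nonpos θ (by linarith)]
      simp
    | succ k =>
      rw [Nat.cast_add, Nat.cast_one] at h1 h2 ⊢
      have hk : (0 : ℝ) ≤ (k : ℝ) := Nat.cast_nonneg _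
      rw [Shape.val_cons, Shape.val_cons, c2p_clamp_ge (by linarith), c2p_clamp_ge (by linarith),
        ih k (t := t - 1) (by linarith) (by linarith), add_sub_cancel_right, List.getD_cons_succ,
        add_assoc]
      congr 3
      ring

/-- two times in the same closed piece -/
theorem Shape.val_sub_piece (θ : Shape n) (k : ℕ) {s t : ℝ} (hs1 : (k : ℝ) ≤ s) (hs2 : s ≤ k + 1)
    (ht1 : (k : ℝ) ≤ t) (ht2 : t ≤ k + 1) : θ.val t - θ.val s = (t - s) • θ.getD k 0 := by
  rw [θ.val_piece k hs1 hs2, θ.val_piece k ht1 ht2, add_sub_add_left_eq_sub, ← sub_smul]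
  congr 1
  ring

theorem Shape.val_eq_sum (θ : Shape n) (t : ℝ) :
    θ.val t = ∑ j ∈ Finset.range θ.length, (max 0 (min (t - j) 1)) • θ.getD j 0 := by
  induction θ generalizing t with
  | nil => simp [Shape.val_nil]
  | cons v θ ih =>
    rw [Shape.val_cons, List.length_cons, Finset.sum_range_succ', ih (t - 1), add_comm]
    congr 1
    · apply Finset.sum_congr rfl
      intro j _
      rw [List.getD_cons_succ, Nat.cast_add, Nat.cast_one]
      congr 3
      ring
    · simp

theorem Shape.sum_eq_sum (θ : Shape n) :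
    θ.sum = ∑ j ∈ Finset.range θ.length, θ.getD j 0 := by
  induction θ with
  | nil => simp
  | cons v θ ih =>
    rw [List.sum_cons, List.length_cons, Finset.sum_range_succ', ih, add_comm]
    simp

/-- joint continuity in the shape (same length, entrywise convergence) and the time -/
theorem Shape.val_tendsto (θ : Shape n) (θS : ℕ → Shape n) (tS : ℕ → ℝ) (t : ℝ)
    (hlen : ∀ m, (θS m).length = θ.length)
    (hθ : ∀ j, Filter.Tendsto (fun m => (θS m).getD j 0) Filter.atTop (nhds (θ.getD j 0)))
    (ht : Filter.Tendsto tS Filter.atTop (nhds t)) :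
    Filter.Tendsto (fun m => (θS m).val (tS m)) Filter.atTop (nhds (θ.val t)) := by
  have h : (fun m => (θS m).val (tS m)) = fun m =>
      ∑ j ∈ Finset.range θ.length, (max 0 (min (tS m - j) 1)) • (θS m).getD j 0 := by
    funext m
    rw [Shape.val_eq_sum, hlen]
  rw [h, Shape.val_eq_sum]
  apply tendsto_finset_sum
  intro j _
  apply Filter.Tendsto.smul _ (hθ j)
  apply Filter.Tendsto.max tendsto_const_nhds
  apply Filter.Tendsto.min _ tendsto_const_nhds
  exact ht.sub tendsto_const_nhds

theorem Shape.sum_tendsto (θ : Shape n) (θS : ℕ → Shape n)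
    (hlen : ∀ m, (θS m).length = θ.length)
    (hθ : ∀ j, Filter.Tendsto (fun m => (θS m).getD j 0) Filter.atTop (nhds (θ.getD j 0))) :
    Filter.Tendsto (fun m => (θS m).sum) Filter.atTop (nhds θ.sum) := by
  have h : (fun m => (θS m).sum) = fun m =>
      ∑ j ∈ Finset.range θ.length, (θS m).getD j 0 := by
    funext m
    rw [Shape.sum_eq_sum, hlen]
  rw [h, Shape.sum_eq_sum]
  apply tendsto_finset_sum
  intro j _
  exact hθ j

namespace RDatum

variable (D : RDatum n)

theorem cham_add {x y : Vec n} (hx : D.Cham x) (hy : D.Cham y) : D.Cham (x + y) := by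
  intro β hβ
  rw [dot_add_left]
  exact add_nonneg (hx β hβ) (hy β hβ)

theorem cham_smul {r : ℝ} (hr : 0 ≤ r) {x : Vec n} (hx : D.Cham x) : D.Cham (r • x) := by
  intro β hβ
  rw [dot_smul_left]
  exact mul_nonneg hr (hx β hβ)

theorem cham_zero : D.Cham (0 : Vec n) := by
  intro β _
  rw [dot_zero_left]

theorem reg_add_cham {x y : Vec n} (hx : D.Reg x) (hy : D.Cham y) : D.Reg (x + y) := by
  intro β hβ
  rw [dot_add_left]
  exact add_pos_of_pos_of_nonneg (hx β hβ) (hy β hβ)

theorem reg_smul {r : ℝ} (hr : 0 < r) {x : Vec n} (hx : D.Reg x) : D.Reg (r • x) := by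
  intro β hβ
  rw [dot_smul_left]
  exact mul_pos hr (hx β hβ)

/-- (C7) -/
theorem cham_sum {θ : Shape n} (h : ∀ v ∈ θ, D.Cham v) : D.Cham θ.sum := by
  induction θ with
  | nil => exact D.cham_zero
  | cons v θ ih =>
    rw [List.sum_cons]
    exact D.cham_add (h v (List.mem_cons_self ..)) (ih fun w hw => h w (List.mem_cons_of_mem _ hw))

theorem reg_sum {θ : Shape n} (hne : θ ≠ []) (h : ∀ v ∈ θ, D.Reg v) : D.Reg θ.sum := by
  cases θ with
  | nil => exact absurd rfl hne
  | cons v θ =>
    rw [List.sum_cons]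
    exact D.reg_add_cham (h v (List.mem_cons_self ..))
      (D.cham_sum fun w hw => (h w (List.mem_cons_of_mem _ hw)).cham)

theorem val_sub_cham {θ : Shape n} (h : ∀ v ∈ θ, D.Cham v) {s t : ℝ} (hst : s ≤ t) :
    D.Cham (θ.val t - θ.val s) := by
  induction θ generalizing s t with
  | nil =>
    rw [Shape.val_nil, Shape.val_nil, sub_zero]
    exact D.cham_zero
  | cons v θ ih =>
    rw [Shape.val_cons, Shape.val_cons, add_sub_add_comm, ← sub_smul]
    exact D.cham_add (D.cham_smul (c2p_clamp_mono hst).1 (h v (List.mem_cons_self ..)))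
      (ih (fun w hw => h w (List.mem_cons_of_mem _ hw)) (by linarith))

theorem val_sub_reg {θ : Shape n} (h : ∀ v ∈ θ, D.Reg v) {s t : ℝ} (hs : 0 ≤ s) (hst : s < t)
    (ht : t ≤ (θ.length : ℝ)) : D.Reg (θ.val t - θ.val s) := by
  induction θ generalizing s t with
  | nil =>
    rw [List.length_nil, Nat.cast_zero] at ht
    linarith
  | cons v θ ih =>
    rw [List.length_cons, Nat.cast_add, Nat.cast_one] at ht
    have h' : ∀ w ∈ θ, D.Reg w := fun w hw => h w (List.mem_cons_of_mem _ hw)
    rw [Shape.val_cons, Shape.val_cons, add_sub_add_comm, ← sub_smul]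
    by_cases hs1 : s < 1
    · apply D.reg_add_cham _ (D.val_sub_cham (fun w hw => (h' w hw).cham) (by linarith))
      apply D.reg_smul _ (h v (List.mem_cons_self ..))
      rw [c2p_clamp_mid hs hs1.le]
      have : s < min t 1 := lt_min hst hs1
      have h2 := le_max_right 0 (min t 1)
      linarith
    · have hs1' : 1 ≤ s := not_lt.1 hs1
      rw [c2p_clamp_ge hs1', c2p_clamp_ge (by linarith), sub_self, zero_smul, zero_add]
      exact ih h' (by linarith) (by linarith) (by linarith)

/-- Lipschitz bound in the invariant seminorm -/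
theorem rnorm_val_sub_le (θ : Shape n) (s t : ℝ) :
    D.rnorm (θ.val t - θ.val s) ≤ (θ.map D.rnorm).sum * |t - s| := by
  induction θ generalizing s t with
  | nil =>
    rw [Shape.val_nil, Shape.val_nil, sub_zero, D.rnorm_zero]
    simp
  | cons v θ ih =>
    rw [Shape.val_cons, Shape.val_cons, add_sub_add_comm, ← sub_smul, List.map_cons, List.sum_cons,
      add_mul]
    refine (D.rnorm_add_le _ _).trans (add_le_add ?_ ?_)
    · rw [D.rnorm_smul, mul_comm]
      exact mul_le_mul_of_nonneg_left (c2p_clamp_abs s t) (D.rnorm_nonneg v)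
    · have := ih (s - 1) (t - 1)
      rwa [sub_sub_sub_cancel_right] at this

end RDatum

end Claimed.Agent.R282
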