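import Claimed.Agent.R282.S2C.P.It
import Claimed.Agent.R282.S2C.B.Par

/-!
# 2C / BP-P3: UNFOLDING a dominant decreasing path (paper: paragraph around `(real:unfolded-jump)`)

INPUT: `IsDec lam θ xi u0 l`, regular shape, `lam`, `xi` regular.
OUTPUT: an admissible itinerary in normal form with the same folded path.
PLAN.
(1) Normal form of the folded path: merge simultaneous jumps (`Ge` is transitive, `itPos_split`),
    delete jumps to the same frame (`itPos_drop`), absorb jumps at time `0` in `u0` and delete jumps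
    at time `T`: get `0 < τ₁ < … < τ_k < T`, `u_0 > u_1 > … > u_k`, same path on `[0,T]`.
(2) At a site `τ_j` with position `p = x(τ_j) ∈ Cham`:  `PMax p u_{j-1}` and `PMin p u_j`:
    for `β > 0`, `β·p = 0`: `0 ≤ β·x(τ_j - ε) = - β·u_{j-1}(η τ_j - η(τ_j-ε))`, and the argument is
    regular (`val_sub_reg`), so `β·u_{j-1}(…) < 0` (it is `≠ 0`), hence `(u_{j-1}ρ)·β < 0`
    (`dot_frame_rho_neg`).  Same after the site.
(3) Induction over the sites carrying an accumulated frame `G_j ∈ W` with `y = G_j x` on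
    `[τ_j, τ_{j+1}]`:  `G_0 = 1`;  at site `j` choose `k ∈ Stab(p)` with `PMax p (k u_j)`
    (`exists_pmax`), put `G_j = G_{j-1} k⁻¹`… (any convention with `G_j p = G_{j-1} p`), new frames
    `a_j = G_j u_j`.  In the frame `G_{j-1}`: the jump is `u_{j-1} → k u_j`, `Ge` by `pmax_ge_coset`,
    both `PMax p`, so `pmax_all` gives the comparison for every `g` fixing `p`; a general `g ∈ W` with
    `g (y τ_j) ∈ Cham` is `g = g' G_{j-1}⁻¹` with `g' p = p` (`cham_fix`).  This is `IsAdm`.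
(4) delete the zero jumps (`a_j = a_{j-1}`) with `itPos_drop`: `IsNF`.
`SameFold`: `y(t) = G_j x(t)`.
Size: ~700 lines; natural split: (1) | (2) | (3)+(4).
-/

set_option autoImplicit false

namespace Claimed.Agent.R282

variable {n : ℕ}

/-! ### elementary calculus of the state machine -/

theorem c2p3_itPos_le (θ : Shape n) (S : ASt n) (l : List (ℝ × Fr n)) {t : ℝ}
    (h : ∀ p ∈ l, t ≤ p.1) : itPos θ S l t = S.pos θ t := by
  cases l with
  | nil => rfl
  | cons p l => rw [itPos, if_pos (h p (List.mem_cons_self ..))]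

theorem c2p3_itPos_gt (θ : Shape n) (S : ASt n) (p : ℝ × Fr n) (l : List (ℝ × Fr n)) {t : ℝ}
    (h : p.1 < t) : itPos θ S (p :: l) t = itPos θ (S.jump θ p.1 p.2) l t := by
  rw [itPos, if_neg (not_le.2 h)]

theorem c2p3_jump_jump (θ : Shape n) (S : ASt n) (τ : ℝ) (v w : Fr n) :
    (S.jump θ τ v).jump θ τ w = S.jump θ τ w := by
  simp only [ASt.jump, sub_add_cancel]

theorem c2p3_jump_self (θ : Shape n) (S : ASt n) (τ : ℝ) : S.jump θ τ S.fr = S := by
  cases S
  simp only [ASt.jump, add_sub_cancel_right]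

theorem c2p3_jump_pos (θ : Shape n) (S : ASt n) (τ : ℝ) (v : Fr n) :
    (S.jump θ τ v).pos θ τ = S.pos θ τ := by
  simp only [ASt.jump, ASt.pos, sub_add_cancel]

/-- a frame acting on a state -/
def c2p3_act (G : Fr n) (S : ASt n) : ASt n := ⟨G * S.fr, G S.c⟩

theorem c2p3_act_pos (θ : Shape n) (G : Fr n) (S : ASt n) (t : ℝ) :
    (c2p3_act G S).pos θ t = G (S.pos θ t) := by
  simp only [c2p3_act, ASt.pos, map_add, LinearEquiv.mul_apply]

/-- the jump of the unfolded state -/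
theorem c2p3_act_jump (θ : Shape n) (G k : Fr n) (S : ASt n) (τ : ℝ) (v : Fr n)
    (hk : k (S.pos θ τ) = S.pos θ τ) :
    (c2p3_act G S).jump θ τ (G * k * v) = c2p3_act (G * k) (S.jump θ τ v) := by
  have h1 : G (k (S.c + S.fr (θ.val τ))) = G (S.c + S.fr (θ.val τ)) := by
    have := hk
    simp only [ASt.pos] at this
    rw [this]
  simp only [c2p3_act, ASt.jump, LinearEquiv.mul_apply, map_sub]
  rw [h1, map_add]

namespace RDatum

variable (D : RDatum n)

/-- (1) NORMAL FORM of the folded path: simultaneous jumps are merged, the jumps at the starting time `σ`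
are absorbed in the first frame, the jumps at the final time are deleted. -/
theorem c2p3_norm (θ : Shape n) (l : List (ℝ × Fr n)) :
    ∀ (S : ASt n) (σ : ℝ), S.fr ∈ D.W → (∀ p ∈ l, p.2 ∈ D.W) →
      (∀ p ∈ l, σ ≤ p.1 ∧ p.1 ≤ (θ.length : ℝ)) → l.Pairwise (fun p q => p.1 ≤ q.1) →
      itAll θ (fun S _ v => D.Ge S.fr v) S l →
    ∃ (a : Fr n) (l' : List (ℝ × Fr n)), a ∈ D.W ∧ (∀ p ∈ l', p.2 ∈ D.W) ∧
      (∀ p ∈ l', σ < p.1 ∧ p.1 < (θ.length : ℝ)) ∧ l'.Pairwise (fun p q => p.1 < q.1) ∧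
      itAll θ (fun S _ v => D.Ge S.fr v) (S.jump θ σ a) l' ∧ D.Ge S.fr a ∧
      ∀ t, σ ≤ t → t ≤ (θ.length : ℝ) → itPos θ S l t = itPos θ (S.jump θ σ a) l' t := by
  induction l with
  | nil =>
    intro S σ hS _ _ _ _
    refine ⟨S.fr, [], hS, by simp, by simp, List.Pairwise.nil, trivial, Relation.ReflTransGen.refl,
      fun t _ _ => ?_⟩
    rw [c2p3_jump_self]
  | cons p l ih =>
    intro S σ hS hW ht hs hc
    obtain ⟨hp1, hp2⟩ := ht p (List.mem_cons_self ..)
    have hW' : ∀ q ∈ l, q.2 ∈ D.W := fun q hq => hW q (List.mem_cons_of_mem _ hq)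
    have hpW : p.2 ∈ D.W := hW p (List.mem_cons_self ..)
    obtain ⟨hs1, hs2⟩ := List.pairwise_cons.1 hs
    obtain ⟨hc1, hc2⟩ := hc
    have ht' : ∀ q ∈ l, p.1 ≤ q.1 ∧ q.1 ≤ (θ.length : ℝ) := fun q hq =>
      ⟨hs1 q hq, (ht q (List.mem_cons_of_mem _ hq)).2⟩
    obtain ⟨a, l', ha, hlW, hlt, hls, hlc, hga, hpath⟩ := ih (S.jump θ p.1 p.2) p.1 hpW hW' ht' hs2 hc2
    rw [c2p3_jump_jump] at hlc hpath
    have hga' : D.Ge S.fr a := Relation.ReflTransGen.trans hc1 hga
    rcases hp1.eq_or_lt with he | hσp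
    · -- a jump at the starting time
      refine ⟨a, l', ha, hlW, ?_, hls, ?_, hga', fun t h1 h2 => ?_⟩
      · rw [he]; exact hlt
      · rw [he]; exact hlc
      · rcases h1.eq_or_lt with h3 | h3
        · rw [← h3, c2p3_itPos_le θ S (p :: l) (fun q hq => (ht q hq).1),
            c2p3_itPos_le θ _ l' (fun q hq => by rw [he]; exact (hlt q hq).1.le), c2p3_jump_pos]
        · rw [c2p3_itPos_gt θ S p l (by rw [← he]; exact h3), he]
          exact hpath t (by rw [← he]; exact h3.le) h2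
    · rcases hp2.eq_or_lt with he | hlt2
      · -- a jump at the final time
        refine ⟨S.fr, [], hS, by simp, by simp, List.Pairwise.nil, trivial,
          Relation.ReflTransGen.refl, fun t _ h2 => ?_⟩
        rw [c2p3_jump_self, c2p3_itPos_le θ S (p :: l) (fun q hq => ?_)]
        · rfl
        · rcases List.mem_cons.1 hq with rfl | hq
          · rw [he]; exact h2
          · exact h2.trans (he ▸ hs1 q hq)
      · -- an interior jump
        refine ⟨S.fr, (p.1, a) :: l', hS, ?_, ?_, ?_, ?_, Relation.ReflTransGen.refl,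
          fun t _ h2 => ?_⟩
        · intro q hq
          rcases List.mem_cons.1 hq with rfl | hq
          · exact ha
          · exact hlW q hq
        · intro q hq
          rcases List.mem_cons.1 hq with rfl | hq
          · exact ⟨hσp, hlt2⟩
          · exact ⟨hσp.trans (hlt q hq).1, (hlt q hq).2⟩
        · exact List.pairwise_cons.2 ⟨fun q hq => (hlt q hq).1, hls⟩
        · rw [c2p3_jump_self]
          exact ⟨hga', hlc⟩
        · rw [c2p3_jump_self]
          rcases le_or_gt t p.1 with h3 | h3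
          · rw [itPos, if_pos h3, itPos, if_pos h3]
          · rw [c2p3_itPos_gt θ S p l h3, c2p3_itPos_gt θ S (p.1, a) l' h3]
            exact hpath t h3.le h2

/-- (2) the frame before a site is maximal in its coset under the stabiliser of the position -/
theorem c2p3_pmax {θ : Shape n} (hθ : ∀ v ∈ θ, D.Reg v) {S : ASt n} (hS : S.fr ∈ D.W) {σ τ : ℝ}
    (h0 : 0 ≤ σ) (hστ : σ < τ) (hτ : τ ≤ (θ.length : ℝ)) (hc : D.Cham (S.pos θ σ)) :
    D.PMax (S.pos θ τ) S.fr := by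
  intro β hβ hβp
  have hd := D.val_sub_reg hθ h0 hστ hτ
  have e : S.pos θ σ = S.pos θ τ - S.fr (θ.val τ - θ.val σ) := by
    simp only [ASt.pos, map_sub]
    abel
  have h1 := hc β hβ
  rw [e, dot_sub_left, hβp, zero_sub] at h1
  by_contra hneg
  have hne : dot (S.fr D.rho) β ≠ 0 := by
    rw [D.dot_inv hS]
    exact D.rho_reg _ (D.inv_map_roots hS hβ.1)
  have hpos : 0 < dot (S.fr D.rho) β := lt_of_le_of_ne (not_lt.1 hneg) hne.symm
  have := D.dot_frame_pos hS hβ.1 hpos hd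
  linarith

/-- (3)+(4) UNFOLDING of a folded path in normal form, with an accumulated frame `G` -/
theorem c2p3_unf {θ : Shape n} (hθ : ∀ v ∈ θ, D.Reg v) (l : List (ℝ × Fr n)) :
    ∀ (S : ASt n) (σ : ℝ) (G : Fr n), 0 ≤ σ → S.fr ∈ D.W → G ∈ D.W → (∀ p ∈ l, p.2 ∈ D.W) →
      (∀ p ∈ l, σ < p.1 ∧ p.1 < (θ.length : ℝ)) → l.Pairwise (fun p q => p.1 < q.1) →
      itAll θ (fun S _ v => D.Ge S.fr v) S l →
      (∀ t, σ ≤ t → t ≤ (θ.length : ℝ) → D.Cham (itPos θ S l t)) →
    ∃ l' : List (ℝ × Fr n), (∀ p ∈ l', p.2 ∈ D.W) ∧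
      (∀ p ∈ l', σ < p.1 ∧ p.1 < (θ.length : ℝ)) ∧ l'.Pairwise (fun p q => p.1 < q.1) ∧
      itAll θ (fun S t v => ∀ g ∈ D.W, D.Cham (g (S.pos θ t)) → D.Ge (g * S.fr) (g * v))
        (c2p3_act G S) l' ∧
      ((c2p3_act G S).fr :: l'.map Prod.snd).IsChain (fun a b => a ≠ b) ∧
      ∀ t, σ ≤ t → t ≤ (θ.length : ℝ) → ∃ g ∈ D.W, itPos θ (c2p3_act G S) l' t = g (itPos θ S l t) := by
  induction l with
  | nil =>
    intro S σ G _ _ hG _ _ _ _ _
    refine ⟨[], by simp, by simp, List.Pairwise.nil, trivial, by simp, fun t _ _ => ⟨G, hG, ?_⟩⟩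
    exact c2p3_act_pos θ G S t
  | cons p l ih =>
    intro S σ G h0 hS hG hW ht hs hc hcham
    obtain ⟨hp1, hp2⟩ := ht p (List.mem_cons_self ..)
    have hW' : ∀ q ∈ l, q.2 ∈ D.W := fun q hq => hW q (List.mem_cons_of_mem _ hq)
    have hpW : p.2 ∈ D.W := hW p (List.mem_cons_self ..)
    obtain ⟨hs1, hs2⟩ := List.pairwise_cons.1 hs
    obtain ⟨hc1, hc2⟩ := hc
    have ht' : ∀ q ∈ l, p.1 < q.1 ∧ q.1 < (θ.length : ℝ) := fun q hq =>
      ⟨hs1 q hq, (ht q (List.mem_cons_of_mem _ hq)).2⟩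
    -- the position at the site
    have hle : ∀ t, t ≤ p.1 → itPos θ S (p :: l) t = S.pos θ t := fun t h => by
      rw [itPos, if_pos h]
    have hP : D.Cham (S.pos θ p.1) := by
      have := hcham p.1 hp1.le hp2.le
      rwa [hle _ le_rfl] at this
    have hPσ : D.Cham (S.pos θ σ) := by
      have := hcham σ le_rfl (hp1.le.trans hp2.le)
      rwa [hle _ hp1.le] at this
    have hmax : D.PMax (S.pos θ p.1) S.fr := D.c2p3_pmax hθ hS h0 hp1 hp2.le hPσ
    obtain ⟨k, hk, hkp, hkmax⟩ := D.exists_pmax hP hpW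
    have hGk : G * k ∈ D.W := D.W.mul_mem hG hk
    have hcham' : ∀ t, p.1 ≤ t → t ≤ (θ.length : ℝ) → D.Cham (itPos θ (S.jump θ p.1 p.2) l t) := by
      intro t h1 h2
      rcases h1.eq_or_lt with h3 | h3
      · rw [← h3, c2p3_itPos_le θ _ l (fun q hq => (hs1 q hq).le), c2p3_jump_pos]
        exact hP
      · have := hcham t (hp1.le.trans h1) h2
        rwa [c2p3_itPos_gt θ S p l h3] at this
    obtain ⟨l', hlW, hlt, hls, hladm, hlch, hlf⟩ :=
      ih (S.jump θ p.1 p.2) p.1 (G * k) (h0.trans hp1.le) hpW hGk hW' ht' hs2 hc2 hcham'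
    have hjump := c2p3_act_jump θ G k S p.1 p.2 hkp
    have hfold : ∀ (L : List (ℝ × Fr n)), (∀ t, t ≤ p.1 → itPos θ (c2p3_act G S) L t
          = (c2p3_act G S).pos θ t) →
        (∀ t, p.1 < t → itPos θ (c2p3_act G S) L t
          = itPos θ (c2p3_act (G * k) (S.jump θ p.1 p.2)) l' t) →
        ∀ t, σ ≤ t → t ≤ (θ.length : ℝ) →
          ∃ g ∈ D.W, itPos θ (c2p3_act G S) L t = g (itPos θ S (p :: l) t) := by
      intro L hL1 hL2 t _ h2
      rcases le_or_gt t p.1 with h3 | h3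
      · exact ⟨G, hG, by rw [hL1 t h3, hle t h3, c2p3_act_pos]⟩
      · obtain ⟨g, hg, hgt⟩ := hlf t h3.le h2
        exact ⟨g, hg, by rw [hL2 t h3, hgt, c2p3_itPos_gt θ S p l h3]⟩
    by_cases hb : G * k * p.2 = (c2p3_act G S).fr
    · -- a zero jump: delete it
      have hst : c2p3_act (G * k) (S.jump θ p.1 p.2) = c2p3_act G S := by
        rw [← hjump, hb, c2p3_jump_self]
      rw [hst] at hladm hlch hlf
      refine ⟨l', hlW, fun q hq => ⟨hp1.trans (hlt q hq).1, (hlt q hq).2⟩, hls, hladm, hlch, ?_⟩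
      refine hfold l' (fun t h => c2p3_itPos_le θ _ l' fun q hq => h.trans (hlt q hq).1.le)
        (fun t _ => by rw [hst])
    · refine ⟨(p.1, G * k * p.2) :: l', ?_, ?_, ?_, ⟨?_, ?_⟩, ?_, ?_⟩
      · intro q hq
        rcases List.mem_cons.1 hq with rfl | hq
        · exact D.W.mul_mem hGk hpW
        · exact hlW q hq
      · intro q hq
        rcases List.mem_cons.1 hq with rfl | hq
        · exact ⟨hp1, hp2⟩
        · exact ⟨hp1.trans (hlt q hq).1, (hlt q hq).2⟩
      · exact List.pairwise_cons.2 ⟨fun q hq => (hlt q hq).1, hls⟩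
      · -- admissibility of the jump
        intro g hg hgc
        rw [c2p3_act_pos] at hgc
        have hg' : g * G ∈ D.W := D.W.mul_mem hg hG
        have hfix : (g * G) (S.pos θ p.1) = S.pos θ p.1 := D.cham_fix hP hg' hgc
        have h1 : D.Ge S.fr (k * p.2) := D.pmax_ge_coset hP hS hc1 hmax hk hkp
        have h2 := D.pmax_all hP hS h1 hmax hkmax hg' hfix
        have e1 : g * (c2p3_act G S).fr = g * G * S.fr := by
          simp only [c2p3_act, mul_assoc]
        have e2 : g * (G * k * p.2) = g * G * (k * p.2) := by simp only [mul_assoc]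
        show D.Ge (g * (c2p3_act G S).fr) (g * (G * k * p.2))
        rw [e1, e2]
        exact h2
      · show itAll θ _ ((c2p3_act G S).jump θ p.1 (G * k * p.2)) l'
        rw [hjump]
        exact hladm
      · rw [List.map_cons, List.isChain_cons_cons]
        exact ⟨fun h => hb h.symm, hlch⟩
      · refine hfold _ (fun t h => by rw [itPos, if_pos h]) (fun t h => ?_)
        rw [c2p3_itPos_gt θ _ (p.1, G * k * p.2) l' h, hjump]

end RDatum

end Claimed.Agent.R282

namespace Claimed.Agent.R282.RDatum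

variable {n : ℕ} (D : RDatum n)

/-- (P3) UNFOLDING -/
theorem unfold {lam xi : Vec n} {θ : Shape n} {u0 : Fr n} {l : List (ℝ × Fr n)}
    (hθ : ∀ v ∈ θ, D.Reg v) (hlam : D.Reg lam) (hxi : D.Reg xi) (h : D.IsDec lam θ xi u0 l) :
    ∃ u0' l', D.IsAdm lam θ u0' l' ∧ IsNF θ u0' l' ∧
      D.SameFold θ ⟨u0, lam⟩ l ⟨u0', lam⟩ l' := by
  obtain ⟨a, l1, ha, h1W, h1t, h1s, h1c, -, h1p⟩ := D.c2p3_norm θ l ⟨u0, lam⟩ 0 h.u0_mem h.fr_mem
    h.times_mem h.sorted h.chain
  have hst : (⟨u0, lam⟩ : ASt n).jump θ 0 a = ⟨a, lam⟩ := by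
    simp only [ASt.jump, Shape.val_nonpos θ le_rfl, map_zero, add_zero, sub_zero]
  rw [hst] at h1c h1p
  have hcham : ∀ t, 0 ≤ t → t ≤ (θ.length : ℝ) → D.Cham (itPos θ ⟨a, lam⟩ l1 t) := by
    intro t h0 hT
    rw [← h1p t h0 hT]
    exact h.inCham t h0 hT
  obtain ⟨l', h2W, h2t, h2s, h2adm, h2ch, h2f⟩ := D.c2p3_unf hθ l1 ⟨a, lam⟩ 0 1 le_rfl ha D.W.one_mem
    h1W h1t h1s h1c hcham
  have hone : c2p3_act (1 : Fr n) ⟨a, lam⟩ = ⟨a, lam⟩ := by
    simp only [c2p3_act, one_mul]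
    rfl
  rw [hone] at h2adm h2ch h2f
  refine ⟨a, l', ⟨⟨ha, h2W, fun p hp => ⟨(h2t p hp).1.le, (h2t p hp).2.le⟩,
    h2s.imp fun h => h.le⟩, h2adm⟩, ⟨h2t, h2s, h2ch⟩, fun t h0 hT => ?_⟩
  obtain ⟨g, hg, hgt⟩ := h2f t h0 hT
  exact ⟨g, hg, by rw [hgt, h1p t h0 hT]⟩

end Claimed.Agent.R282.RDatum
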